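import Vale.Agent.P011.H748.N4Val

/-!
# Good lines have integral intertwiners of unit norm at all points, at almost all nonsplit places
-/

open Module NumberField IsDedekindDomain Polynomial

set_option linter.unusedSectionVars false
set_option linter.unusedSimpArgs false

namespace Vale.Agent.P011.H748

open Vale.Agent.P011.Arith Vale.Agent.P011.Even Vale.Agent.P011.H182 Vale.Agent.P011.H775
  Vale.Agent.P011.H948 Vale.Agent.P011.H929

variable {k K D : Type} [Field k] [NumberField k] [Field K] [StarRing K]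
    [DivisionRing D] [StarRing D] [Algebra k K] [Algebra k D] [Algebra K D] [IsScalarTower k K D]
    {d : kˣ} {s : K} {N : ℕ}

/-- The point of the curve. -/
noncomputable def pt (C : Cub K D) (x u a : D) : D :=
  u * star (be C ((x - 1) * u) a) * (be C ((x - 1) * u) a)⁻¹

/-- All points of the line `a + t b` are good at almost all nonsplit places. -/
def GoodLine (C : Cub K D) (B : Basis (Fin N) k D) (d : kˣ) (x u a b : D) : Prop :=
  ∃ S : Set (HeightOneSpectrum (𝓞 k)), S.Finite ∧ ∀ v ∉ S, d ∉ LS (v.valuation k) → ∀ t : k,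
    be C ((x - 1) * u) (a + t • b) ≠ 0 ∧ GoodInt B v (pt C x u (a + t • b))
      (x * pt C x u (a + t • b))

theorem goodInt_of (hS : Setting k K D d s) {C : Cub K D} {B : Basis (Fin N) k D}
    {v : HeightOneSpectrum (𝓞 k)} (h2 : v.valuation k 2 = 1) (hd : v.valuation k (d : k) = 1)
    (hLS : d ∉ LS (v.valuation k)) {w w' g : D} (hg : w' * g = g * w)
    (h3 : Ig B (plAbv (Sum.inl v)) g) (h4 : Ig B (plAbv (Sum.inl v)) (star (C.N g) • C.adj g))
    (h5 : KI v s (C.N g)) (h6 : ¬ KS v s (C.N g)) : GoodInt B v w w' := by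
  obtain ⟨c, hc, hc1⟩ := unit_of_not_small hS h2 hd hLS h5 h6
  refine ⟨g, star (C.N g) • C.adj g, c, hg, h3, h4, ?_, hc1⟩
  rw [smul_mul_assoc, C.adj_mul, smul_smul, hc, IsScalarTower.algebraMap_apply k K D,
    Algebra.algebraMap_eq_smul_one (A := D)]

/-- The integral intertwiner at the point `a`. -/
noncomputable def gi (C : Cub K D) (x u a c : D) : D :=
  hr C (qq C (x * u) ((x - 1) * u) (star ((x - 1) * u)) a)
    (qq C u ((x - 1) * u) (star ((x - 1) * u)) a) c

section gi

variable {C : Cub K D} (h : SCub C) {x u : D} (hx : x * star x = 1) (hxN : C.N x = 1)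
  (hu : u * star u = 1) (hT : C.T ((x - 1) * u) = 0)

include h hx hxN hu hT

theorem gi_inter {a : D} (ha : star a = a) (hm0 : be C ((x - 1) * u) a ≠ 0) (c : D) :
    x * pt C x u a * gi C x u a c = gi C x u a c * pt C x u a :=
  pt_hr h hx hxN hu hT ha hm0 c

end gi

theorem gi_int [CharZero K] {C : Cub K D} {B : Basis (Fin N) k D} (x u a b c : D) :
    EI B fun t : k => gi C x u (a + t • b) c :=
  EI.hr C c ((EI.line a b).qq C _ _ _) ((EI.line a b).qq C _ _ _)

theorem line_symm (hS : Setting k K D d s) {a b : D} (ha : star a = a) (hb : star b = b) (t : k) :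
    star (a + t • b) = a + t • b := by
  rw [star_add, ha, star_k hS, hb]

/-- First chart. -/
theorem chart1 (hS : Setting k K D d s) {C : Cub K D} (h : SCub C) (B : Basis (Fin N) k D)
    {x u : D} (hx : x * star x = 1) (hxN : C.N x = 1) (hu : u * star u = 1)
    (hT : C.T ((x - 1) * u) = 0) {a b : D} (ha : star a = a) (hb : star b = b)
    (n : K[X]) (hn : ∀ t : k, n.eval (algebraMap k K t) = C.N (be C ((x - 1) * u) (a + t • b)))
    (P : D → K[X]) (hP : ∀ (c : D) (t : k), (P c).eval (algebraMap k K t) =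
      C.N (gi C x u (a + t • b) c))
    {U U' : K[X]} (hU : ∀ t : k,
      U.eval (algebraMap k K t) * C.N (be C ((x - 1) * u) (a + t • b)) +
      U'.eval (algebraMap k K t) * C.N (be C (star ((x - 1) * u)) (a + t • b)) = 1)
    {T : Finset D} {A : D → K[X]} {M : ℕ} (hA : ∀ t : k,
      ∑ c ∈ T, (A c).eval (algebraMap k K t) * C.N (gi C x u (a + t • b) c) =
      (C.N (be C ((x - 1) * u) (a + t • b)) *
        C.N (be C (star ((x - 1) * u)) (a + t • b))) ^ M) :
    ∃ S : Set (HeightOneSpectrum (𝓞 k)), S.Finite ∧ ∀ v ∉ S, d ∉ LS (v.valuation k) → ∀ t : k,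
      v.valuation k t ≤ 1 →
      be C ((x - 1) * u) (a + t • b) ≠ 0 ∧ GoodInt B v (pt C x u (a + t • b))
        (x * pt C x u (a + t • b)) := by
  have _ := char_K hS
  obtain ⟨S1, hS1, h1⟩ := finite_poly hS n
  obtain ⟨S2, hS2, h2⟩ := finite_poly hS U
  obtain ⟨S3, hS3, h3⟩ := finite_poly hS U'
  choose S4 hS4 h4 using fun c => finite_poly hS (A c)
  choose S5 hS5 h5 using fun c => finite_poly hS (P c)
  choose S6 hS6 h6 using fun c => gi_int (C := C) (B := B) x u a b c
  choose S7 hS7 h7 using fun c => (gi_int (C := C) (B := B) x u a b c).nadj C hS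
  refine ⟨S1 ∪ (S2 ∪ (S3 ∪ ((⋃ c ∈ T, S4 c) ∪ ((⋃ c ∈ T, S5 c) ∪ ((⋃ c ∈ T, S6 c) ∪
    ((⋃ c ∈ T, S7 c) ∪ ({v | ¬ v.valuation k (d : k) = 1} ∪
      {v | ¬ v.valuation k ((Units.mk0 (2 : k) two_ne_zero : kˣ) : k) = 1}))))))), ?_, ?_⟩
  · exact hS1.union (hS2.union (hS3.union ((Set.Finite.biUnion (Finset.finite_toSet _)
      fun c _ => hS4 c).union ((Set.Finite.biUnion (Finset.finite_toSet _)
      fun c _ => hS5 c).union ((Set.Finite.biUnion (Finset.finite_toSet _)
      fun c _ => hS6 c).union ((Set.Finite.biUnion (Finset.finite_toSet _)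
      fun c _ => hS7 c).union ((finite_not_unit d).union (finite_not_unit _))))))))
  intro v hv hLS t ht
  simp only [Set.mem_union, Set.mem_iUnion, Set.mem_ofPred_eq, not_or, not_exists, not_not,
    Units.val_mk0] at hv
  obtain ⟨v1, v2, v3, v4, v5, v6, v7, vd, v2'⟩ := hv
  set e := C.N (be C ((x - 1) * u) (a + t • b)) with he
  have hsym := line_symm hS ha hb t
  have hse : C.N (be C (star ((x - 1) * u)) (a + t • b)) = star e := by
    rw [he, ← h.N, star_be h hsym]
  have k1 : KI v s e := by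
    rw [he, ← hn]
    exact h1 v v1 t ht
  have k2 : ¬ KS v s e := by
    intro hks
    apply not_ks_one hS (v := v)
    rw [← hU t, hse, ← he]
    exact (KS.mul hS vd.le (h2 v v2 t ht) hks).add (KS.mul hS vd.le (h3 v v3 t ht) (hks.star hS))
  have hm0 : be C ((x - 1) * u) (a + t • b) ≠ 0 := by
    intro h0
    apply k2
    rw [he, h0, C.N_zero]
    exact ks_zero
  refine ⟨hm0, ?_⟩
  obtain ⟨c, hcT, hc⟩ : ∃ c ∈ T, ¬ KS v s (C.N (gi C x u (a + t • b) c)) := by
    by_contra hcon
    push Not at hcon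
    apply k2
    apply small_of_mul_star hS v2' vd hLS k1 (M := M)
    rw [← hse, he, ← hA t]
    have : ∀ T' : Finset D, T' ⊆ T → KS v s (∑ c ∈ T', (A c).eval (algebraMap k K t) *
        C.N (gi C x u (a + t • b) c)) := by
      intro T'
      classical
      induction T' using Finset.induction_on with
      | empty => intro _; rw [Finset.sum_empty]; exact ks_zero
      | insert c T' hc ih =>
        intro hT'
        rw [Finset.sum_insert hc]
        have hcT : c ∈ T := hT' (Finset.mem_insert_self _ _)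
        exact (KS.mul hS vd.le (h4 c v (v4 c hcT) t ht) (hcon c hcT)).add
          (ih fun j hj => hT' (Finset.mem_insert_of_mem hj))
    exact this T subset_rfl
  refine goodInt_of hS v2' vd hLS (gi_inter h hx hxN hu hT hsym hm0 c) (h6 c v (v6 c hcT) t ht)
    (h7 c v (v7 c hcT) t ht) ?_ hc
  rw [← hP]
  exact h5 c v (v5 c hcT) t ht

theorem not_small_near (hS : Setting k K D d s) {p : K[X]} (hp : p.eval 0 ≠ 0) :
    ∃ S : Set (HeightOneSpectrum (𝓞 k)), S.Finite ∧ ∀ v ∉ S, ∀ t : k, v.valuation k t < 1 →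
      ¬ KS v s (p.eval (algebraMap k K t)) := by
  obtain ⟨S1, hS1, h1⟩ := finite_poly hS (-p.divX)
  have hp0 : p.coeff 0 ≠ 0 := by rwa [coeff_zero_eq_eval_zero]
  refine ⟨S1 ∪ ({v | KS v s (p.coeff 0)} ∪ {v | ¬ v.valuation k (d : k) = 1}),
    hS1.union ((finite_ks hS hp0).union (finite_not_unit d)), fun v hv t ht hks => ?_⟩
  simp only [Set.mem_union, Set.mem_ofPred_eq, not_or, not_not] at hv
  apply hv.2.1
  have e : p.coeff 0 = p.eval (algebraMap k K t) +
      (-p.divX).eval (algebraMap k K t) * algebraMap k K t := by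
    have e1 := congrArg (Polynomial.eval (algebraMap k K t)) (divX_mul_X_add p)
    rw [eval_add, eval_mul, eval_X, eval_C] at e1
    rw [eval_neg]
    linear_combination e1
  rw [e]
  refine hks.add (KS.mul hS hv.2.2.le (h1 v hv.1 t ht.le) ?_)
  exact ⟨t, 0, by rw [map_zero, zero_mul, add_zero], ht, by rw [map_zero]; exact zero_lt_one⟩

/-- Second chart. -/
theorem chart2 (hS : Setting k K D d s) {C : Cub K D} (h : SCub C) (B : Basis (Fin N) k D)
    {x u : D} (hx : x * star x = 1) (hxN : C.N x = 1) (hu : u * star u = 1)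
    (hT : C.T ((x - 1) * u) = 0) {a b : D} (ha : star a = a) (hb : star b = b)
    (n : K[X]) (hn : ∀ t : k, n.eval (algebraMap k K t) = C.N (be C ((x - 1) * u) (b + t • a)))
    (hn0 : n.eval 0 ≠ 0) {c : D}
    (P : K[X]) (hP : ∀ (t : k), P.eval (algebraMap k K t) = C.N (gi C x u (b + t • a) c))
    (hP0 : P.eval 0 ≠ 0) :
    ∃ S : Set (HeightOneSpectrum (𝓞 k)), S.Finite ∧ ∀ v ∉ S, d ∉ LS (v.valuation k) → ∀ t : k,
      v.valuation k t < 1 →
      be C ((x - 1) * u) (b + t • a) ≠ 0 ∧ GoodInt B v (pt C x u (b + t • a))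
        (x * pt C x u (b + t • a)) := by
  have _ := char_K hS
  obtain ⟨S1, hS1, h1⟩ := not_small_near hS hn0
  obtain ⟨S2, hS2, h2⟩ := not_small_near hS hP0
  obtain ⟨S3, hS3, h3⟩ := finite_poly hS P
  obtain ⟨S6, hS6, h6⟩ := gi_int (C := C) (B := B) x u b a c
  obtain ⟨S7, hS7, h7⟩ := (gi_int (C := C) (B := B) x u b a c).nadj C hS
  refine ⟨S1 ∪ (S2 ∪ (S3 ∪ (S6 ∪ (S7 ∪ ({v | ¬ v.valuation k (d : k) = 1} ∪
      {v | ¬ v.valuation k ((Units.mk0 (2 : k) two_ne_zero : kˣ) : k) = 1}))))), ?_, ?_⟩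
  · exact hS1.union (hS2.union (hS3.union (hS6.union (hS7.union
      ((finite_not_unit d).union (finite_not_unit _))))))
  intro v hv hLS t ht
  simp only [Set.mem_union, Set.mem_ofPred_eq, not_or, not_not, Units.val_mk0] at hv
  obtain ⟨v1, v2, v3, v6, v7, vd, v2'⟩ := hv
  have hsym := line_symm hS hb ha t
  have hm0 : be C ((x - 1) * u) (b + t • a) ≠ 0 := by
    intro h0
    apply h1 v v1 t ht
    rw [hn, h0, C.N_zero]
    exact ks_zero
  refine ⟨hm0, ?_⟩
  refine goodInt_of hS v2' vd hLS (gi_inter h hx hxN hu hT hsym hm0 c) (h6 v v6 t ht.le)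
    (h7 v v7 t ht.le) ?_ ?_
  · rw [← hP]
    exact h3 v v3 t ht.le
  · rw [← hP]
    exact h2 v v2 t ht

theorem pt_smul (hS : Setting k K D d s) {C : Cub K D} (x u : D) {t : k} (ht : t ≠ 0) (a : D) :
    be C ((x - 1) * u) (t • a) = (t ^ 2) • be C ((x - 1) * u) a ∧
      pt C x u (t • a) = pt C x u a := by
  have e : be C ((x - 1) * u) (t • a) = (t ^ 2) • be C ((x - 1) * u) a := by
    rw [← algebraMap_smul K t a, be_smul, ← algebraMap_smul K (t ^ 2), map_pow]
  refine ⟨e, ?_⟩
  have ht2 : t ^ 2 ≠ 0 := pow_ne_zero _ ht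
  rw [pt, pt, e, star_k hS, mul_smul_comm, ← algebraMap_smul K (t ^ 2),
    ← algebraMap_smul K (t ^ 2) (be C ((x - 1) * u) a), smul_inv₀, smul_mul_smul_comm,
    mul_inv_cancel₀ ((_root_.map_ne_zero _).mpr ht2), one_smul]

theorem alg_one (C : Cub K D) (c : K) : algebraMap K D c = c • (1 : D) :=
  Algebra.algebraMap_eq_smul_one c

/-- Two elements with the same reduced characteristic polynomial are both central or both not. -/
theorem not_range_of_same [CharZero K] (C : Cub K D) {X w : D} (hw : w ∉ Set.range (algebraMap K D))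
    (hT : C.T X = C.T w) (hS : C.S X = C.S w) (hN : C.N X = C.N w) :
    X ∉ Set.range (algebraMap K D) := by
  rintro ⟨c, rfl⟩
  rw [alg_one C] at hT hS hN
  rw [map_smul, C.T_one, smul_eq_mul] at hT
  rw [Cub.S, adj_smul_one, map_smul, C.T_one, smul_eq_mul] at hS
  rw [N_smul_one] at hN
  apply hw
  refine ⟨c, ?_⟩
  have h1 : C.N (w - c • (1 : D)) = 0 := by
    rw [N_sub_smul_one, ← hN, ← hS, ← hT]
    ring
  rw [C.N_eq_zero, sub_eq_zero] at h1
  rw [alg_one C, h1]

theorem noncentral [Algebra.IsCentral K D] {w : D} (hw : w ∉ Set.range (algebraMap K D)) :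
    ¬ ∀ x : D, x * w = w * x := by
  intro hx
  apply hw
  have : w ∈ Subalgebra.center K D := Subalgebra.mem_center_iff.mpr hx
  rw [Algebra.IsCentral.center_eq_bot] at this
  exact Algebra.mem_bot.mp this

/-- The special direction. -/
theorem be_special (C : Cub K D) {z b : D} (hb : C.T (z * b) = 0) :
    be C z b = C.T (z * C.adj b) • (1 : D) := by
  rw [be, hb, zero_smul, add_zero]

theorem T_star {C : Cub K D} (h : SCub C) {z b : D} (hb : star b = b) :
    C.T (star z * b) = star (C.T (z * b)) := by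
  rw [← h.T, star_mul, hb, C.T_comm]

theorem qq_special {C : Cub K D} (h : SCub C) (w : D) {z b : D} (hbs : star b = b)
    (hb : C.T (z * b) = 0) :
    qq C w z (star z) b = (star (C.T (z * C.adj b)) * C.T (z * C.adj b) ^ 2) • w := by
  have hb' : C.T (star z * b) = 0 := by rw [T_star h hbs, hb, star_zero]
  rw [qq, be_special C hb, be_special C hb', adj_smul_one, T_star h (h.adj_symm hbs),
    mul_smul_comm, mul_one, mul_smul_comm, mul_one, smul_smul, mul_comm]

/-- **A good line is good at almost all nonsplit places.** -/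
theorem goodLine_of (hS : Setting k K D d s) (C : Cub K D) (h9 : finrank K D = 3 ^ 2)
    (B : Basis (Fin N) k D)
    {x u : D} (hx : x * star x = 1) (hxN : C.N x = 1) (hu : u * star u = 1)
    (huc : u ∉ Set.range (algebraMap K D))
    (hT : C.T ((x - 1) * u) = 0) {a b : D} (ha : star a = a) (hb : star b = b)
    (h8 : C.T ((x - 1) * u * b) = 0) (h8' : C.T ((x - 1) * u * C.adj b) ≠ 0)
    {Ω : Type} [Field Ω] [IsAlgClosed Ω] [Algebra K Ω] {f : D →ₐ[K] Matrix (Fin 3) (Fin 3) Ω}
    (fT : ∀ x, (f x).trace = algebraMap K Ω (C.T x))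
    (fN : ∀ x, (f x).det = algebraMap K Ω (C.N x)) (fA : ∀ x, (f x).adjugate = f (C.adj x))
    {q : D} (hgood : ∀ t : Ω, GoodPt (f u) (f (x * u)) (f ((x - 1) * u))
      (f (star ((x - 1) * u))) (f q) (f a + t • f b)) : GoodLine C B d x u a b := by
  have _ := char_K hS
  have _ := hS.fin
  have _ := hS.cen
  have h : SCub C := sCub_of C h9 hS.star_smul
  obtain ⟨⟨U, U', hU⟩, T, A, M, hA⟩ := exists_cert C fT fN fA k h9 hgood
  obtain ⟨n, -, hn⟩ := exists_n C fT fN fA k ((x - 1) * u) a b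
  choose P _ hP using exists_P C fT fN fA k u (x * u) ((x - 1) * u) (star ((x - 1) * u)) a b
  obtain ⟨S1, hS1, h1⟩ := chart1 hS h B hx hxN hu hT ha hb n hn P hP hU hA
  -- second chart
  obtain ⟨hT1, hS1', hN1⟩ := h.same hx hxN hu hT
  have hxu := not_range_of_same C huc hT1 hS1' hN1
  obtain ⟨g, hg0, hg⟩ := C.exists_conj huc hxu hT1.symm hS1'.symm hN1.symm
  have hdP := dP_ne_zero C h9 huc (noncentral huc)
  have hhr : hr C (x * u) u g ≠ 0 := by
    have e := hr_eq C hg (m := 1) (by rw [one_mul, mul_one])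
    rw [mul_one, mul_one] at e
    rw [e]
    exact mul_ne_zero hg0 hdP
  obtain ⟨n2, -, hn2⟩ := exists_n C fT fN fA k ((x - 1) * u) b a
  obtain ⟨P2, -, hP2⟩ := exists_P C fT fN fA k u (x * u) ((x - 1) * u) (star ((x - 1) * u)) b a g
  have hn20 : n2.eval 0 ≠ 0 := by
    have e := hn2 0
    rw [map_zero, zero_smul, add_zero, be_special C h8, N_smul_one] at e
    rw [e]
    exact pow_ne_zero _ h8'
  have hP20 : P2.eval 0 ≠ 0 := by
    have e := hP2 0
    rw [map_zero, zero_smul, add_zero, qq_special h u hb h8, qq_special h (x * u) hb h8,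
      hr_smul] at e
    rw [e]
    apply C.N_ne_zero
    refine smul_ne_zero (pow_ne_zero _ (mul_ne_zero (star_ne_zero.mpr h8') (pow_ne_zero _ h8')))
      hhr
  obtain ⟨S2, hS2, h2⟩ := chart2 hS h B hx hxN hu hT ha hb n2 hn2 hn20 P2 hP2 hP20
  refine ⟨S1 ∪ S2, hS1.union hS2, fun v hv hLS t => ?_⟩
  rw [Set.mem_union, not_or] at hv
  by_cases ht : v.valuation k t ≤ 1
  · exact h1 v hv.1 hLS t ht
  · rw [not_le] at ht
    have ht0 : t ≠ 0 := by
      rintro rfl
      rw [map_zero] at ht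
      exact absurd ht (not_lt.mpr zero_le_one)
    have ht1 : v.valuation k t⁻¹ < 1 := by
      rw [map_inv₀]
      exact inv_lt_one_of_one_lt₀ ht
    have e : a + t • b = t • (b + t⁻¹ • a) := by
      rw [smul_add, smul_smul, mul_inv_cancel₀ ht0, one_smul, add_comm]
    obtain ⟨h3, h4⟩ := h2 v hv.2 hLS _ ht1
    obtain ⟨h5, h6⟩ := pt_smul hS (C := C) x u ht0 (b + t⁻¹ • a)
    rw [e, h6, h5]
    exact ⟨smul_ne_zero (pow_ne_zero _ ht0) h3, h4⟩

end Vale.Agent.P011.H748
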