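import Vale.Agent.P011.H748.N4Alg

/-!
# The point `u β^* β⁻¹` of the unitary group
-/

open Module

set_option linter.unusedSectionVars false
set_option linter.unusedSimpArgs false

namespace Vale.Agent.P011.H748

open Vale.Agent.P011.H775 Vale.Agent.P011.H948

section alg

variable {K D : Type} [Field K] [DivisionRing D] [Algebra K D] (C : Cub K D)

theorem T_adj_be {z a : D} (hz : C.T z = 0) : C.T (z * C.adj (be C z a)) = 0 := by
  rw [be, C.adj_add, C.cr_comm, C.cr_smul_left, C.cr_smul_right, cr_one, adj_smul_one, C.adj_smul]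
  simp only [mul_add, mul_sub, mul_smul_comm, mul_one, map_add, map_sub, map_smul, smul_eq_mul,
    smul_sub, smul_smul, hz]
  ring

theorem T_adj_be' {z a : D} (hz : C.T z = 0) : C.T (z * a * C.adj (be C z a)) = 0 := by
  by_cases h0 : C.T (z * a) = 0
  · rw [be, h0, zero_smul, add_zero, adj_smul_one, mul_smul_comm, mul_one, map_smul, h0, smul_zero]
  · have h1 : C.T (z * a) • C.T (z * a * C.adj (be C z a)) = 0 := by
      have e : C.T (z * a) • (z * a * C.adj (be C z a)) =
          z * (be C z a * C.adj (be C z a)) - C.T (z * C.adj a) • (z * C.adj (be C z a)) := by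
        have h2 : C.T (z * a) • a = be C z a - C.T (z * C.adj a) • (1 : D) := by
          rw [be]; abel
        rw [← smul_mul_assoc, ← mul_smul_comm, h2, mul_sub, sub_mul, mul_smul_comm, mul_one,
          smul_mul_assoc, mul_assoc]
      rw [← map_smul, e, map_sub, C.mul_adj, mul_smul_comm, mul_one, map_smul, hz, map_smul,
        T_adj_be C hz, smul_zero, smul_zero, sub_zero]
    exact (smul_eq_zero.mp h1).resolve_left h0

theorem be_smul (c : K) (z a : D) : be C z (c • a) = c ^ 2 • be C z a := by
  rw [be, be, C.adj_smul, mul_smul_comm, mul_smul_comm, map_smul, map_smul, smul_add, smul_smul,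
    smul_smul, smul_smul, smul_eq_mul, smul_eq_mul]
  congr 2
  ring

theorem hr_smul (c : K) (X w r : D) : hr C (c • X) (c • w) r = c ^ 2 • hr C X w r := by
  simp only [hr, C.adj_smul, map_smul, smul_mul_assoc, mul_smul_comm, smul_add, smul_smul,
    smul_eq_mul, mul_sub, smul_sub, mul_one, sq]
  rw [mul_right_comm c (C.T w) c]

end alg

section star

variable {K D : Type} [Field K] [StarRing K] [DivisionRing D] [StarRing D] [Algebra K D]
  {C : Cub K D} (h : SCub C)

include h

theorem star_be {z a : D} (ha : star a = a) : star (be C z a) = be C (star z) a := by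
  have h1 : ∀ b : D, star b = b → star (C.T (z * b)) = C.T (star z * b) := by
    intro b hb
    rw [← h.T, star_mul, hb, C.T_comm]
  rw [be, be, star_add, h.smul, h.smul, star_one, ha, h1 _ (h.adj_symm ha), h1 _ ha]

theorem comm_star_be {z a : D} (ha : star a = a) : Commute (star (be C z a)) (be C z a) := by
  rw [star_be h ha, be, be]
  have h6 : ∀ e : K, Commute a (e • (1 : D)) := fun e => (Commute.one_right a).smul_right e
  have h7 : ∀ c e : K, Commute (c • (1 : D)) (e • (1 : D)) := fun c e =>
    ((Commute.one_right _).smul_right _)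
  exact ((h7 _ _).add_right ((h6 _).symm.smul_right _)).add_left
    (((h6 _).add_right ((Commute.refl a).smul_right _)).smul_left _)

/-- The point of the curve is unitary. -/
theorem pt_unitary {u m : D} (hu : u * star u = 1) (hm : Commute (star m) m) (hm0 : m ≠ 0) :
    (u * star m * m⁻¹) * star (u * star m * m⁻¹) = 1 := by
  have hm0' : star m ≠ 0 := fun h0 => hm0 (star_eq_zero.1 h0)
  have h1 : m⁻¹ * (star m)⁻¹ = (star m)⁻¹ * m⁻¹ := by
    rw [← mul_inv_rev, ← mul_inv_rev, hm.eq]
  rw [star_mul, star_mul, star_star, star_inv₀]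
  calc u * star m * m⁻¹ * ((star m)⁻¹ * (m * star u))
      = u * star m * (m⁻¹ * (star m)⁻¹) * (m * star u) := by simp only [mul_assoc]
    _ = u * (star m * (star m)⁻¹) * (m⁻¹ * m) * star u := by rw [h1]; simp only [mul_assoc]
    _ = 1 := by rw [mul_inv_cancel₀ hm0', inv_mul_cancel₀ hm0, mul_one, mul_one, hu]

/-- The equation of the curve. -/
theorem pt_T {x u a : D} (hT : C.T ((x - 1) * u) = 0) (ha : star a = a)
    (hm0 : be C ((x - 1) * u) a ≠ 0) :
    C.T ((x - 1) * (u * star (be C ((x - 1) * u) a) * (be C ((x - 1) * u) a)⁻¹)) = 0 := by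
  set z := (x - 1) * u with hz
  set m := be C z a with hm
  have h1 := T_adj_be C (a := a) hT
  have h2 := T_adj_be' C (a := a) hT
  rw [← hm] at h1 h2
  have e : (x - 1) * (u * star m * m⁻¹) = z * star m * m⁻¹ := by
    rw [hz]; simp only [mul_assoc]
  rw [e, C.inv_eq hm0, mul_smul_comm, map_smul, hm, star_be h ha, ← hm]
  have e2 : z * be C (star z) a * C.adj m = C.T (star z * C.adj a) • (z * C.adj m) +
      C.T (star z * a) • (z * a * C.adj m) := by
    rw [be, mul_add, add_mul, mul_smul_comm, mul_smul_comm, mul_one, smul_mul_assoc,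
      smul_mul_assoc]
  rw [e2, map_add, map_smul, map_smul, h1, h2, smul_zero, smul_zero, add_zero, smul_zero]

/-- The intertwiner. -/
theorem pt_hr {x u a : D} (hx : x * star x = 1) (hxN : C.N x = 1) (hu : u * star u = 1)
    (hT : C.T ((x - 1) * u) = 0) (ha : star a = a) (hm0 : be C ((x - 1) * u) a ≠ 0) (c : D) :
    x * (u * star (be C ((x - 1) * u) a) * (be C ((x - 1) * u) a)⁻¹) *
      hr C (qq C (x * u) ((x - 1) * u) (star ((x - 1) * u)) a)
        (qq C u ((x - 1) * u) (star ((x - 1) * u)) a) c =
      hr C (qq C (x * u) ((x - 1) * u) (star ((x - 1) * u)) a)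
        (qq C u ((x - 1) * u) (star ((x - 1) * u)) a) c *
      (u * star (be C ((x - 1) * u) a) * (be C ((x - 1) * u) a)⁻¹) := by
  have h1 := pt_T h hT ha hm0
  have h2 := pt_unitary h hu (comm_star_be h (z := (x - 1) * u) ha) hm0
  set z := (x - 1) * u with hz
  set m := be C z a with hm
  set w := u * star m * m⁻¹ with hw
  have e1 : qq C u z (star z) a = C.N m • w := by
    rw [qq, ← hm, ← star_be h ha, ← hm, C.adj_eq_inv hm0, mul_smul_comm, hw]
  have e2 : qq C (x * u) z (star z) a = C.N m • (x * w) := by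
    rw [qq, ← hm, ← star_be h ha, ← hm, C.adj_eq_inv hm0, mul_smul_comm, hw]
    simp only [mul_assoc]
  obtain ⟨h3, h4, h5⟩ := h.same hx hxN h2 h1
  rw [e1, e2, hr_smul, mul_smul_comm, hr_conj C h3 h4 h5, smul_mul_assoc]

end star

end Vale.Agent.P011.H748
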