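import Vale.Agent.P011.H748.N4Line
import Vale.Agent.P011.H948.SIalg
import Mathlib.FieldTheory.IsAlgClosed.AlgebraicClosure

/-!
# The certificates of a good line
-/

open Matrix Polynomial Module

set_option linter.unusedSectionVars false
set_option linter.unusedSimpArgs false

namespace Vale.Agent.P011.H748

open Vale.Agent.P011.H775 Vale.Agent.P011.H948

section defs

variable {K D : Type} [Field K] [Ring D] [Algebra K D] (C : Cub K D)

/-- `β(a) = T(z a^#) + T(z a) a`. -/
def be (z a : D) : D := C.T (z * C.adj a) • (1 : D) + C.T (z * a) • a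

/-- `w β'(a) β(a)^#`. -/
def qq (w z z' a : D) : D := w * be C z' a * C.adj (be C z a)

/-- The splitting over an algebraically closed field. -/
theorem spl_closed : ∃ (Ω : Type) (_ : Field Ω) (_ : IsAlgClosed Ω) (_ : Algebra K Ω)
    (f : D →ₐ[K] Matrix (Fin 3) (Fin 3) Ω),
    Function.Injective f ∧ (∀ x, (f x).trace = algebraMap K Ω (C.T x)) ∧
    (∀ x, (f x).det = algebraMap K Ω (C.N x)) ∧ ∀ x, (f x).adjugate = f (C.adj x) := by
  obtain ⟨Ω, _, _, f, hf, hT, hN, hA⟩ := C.spl
  have htow : ∀ x : K, algebraMap K (AlgebraicClosure Ω) x =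
      algebraMap Ω (AlgebraicClosure Ω) (algebraMap K Ω x) := fun x =>
    IsScalarTower.algebraMap_apply K Ω (AlgebraicClosure Ω) x
  let ι : Ω →ₐ[K] AlgebraicClosure Ω := IsScalarTower.toAlgHom K Ω (AlgebraicClosure Ω)
  have hι : ∀ x, ι x = algebraMap Ω (AlgebraicClosure Ω) x := fun x => rfl
  refine ⟨AlgebraicClosure Ω, inferInstance, inferInstance, inferInstance,
    ι.mapMatrix.comp f, ?_, ?_, ?_, ?_⟩
  · intro x y hxy
    apply hf
    ext i j
    have h1 := congrFun (congrFun hxy i) j
    exact (algebraMap Ω (AlgebraicClosure Ω)).injective h1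
  · intro x
    rw [htow, ← hT]
    exact (map_tr (ι : Ω →+* AlgebraicClosure Ω) (f x)).symm
  · intro x
    rw [htow, ← hN]
    exact ((ι : Ω →+* AlgebraicClosure Ω).map_det (f x)).symm
  · intro x
    have := (ι : Ω →+* AlgebraicClosure Ω).map_adjugate (f x)
    rw [hA] at this
    exact this.symm

end defs

section split

variable {K D Ω : Type} [Field K] [DivisionRing D] [Algebra K D] (C : Cub K D)
  [Field Ω] [Algebra K Ω] {f : D →ₐ[K] Matrix (Fin 3) (Fin 3) Ω}
  (hT : ∀ x, (f x).trace = algebraMap K Ω (C.T x)) (hA : ∀ x, (f x).adjugate = f (C.adj x))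

include hT hA

theorem f_be (z a : D) : f (be C z a) = bem (f z) (f a) := by
  rw [be, bem, sgm, tam, hA, ← map_mul, ← map_mul, hT, hT, map_add, map_smul, map_smul, map_one,
    algebraMap_smul, algebraMap_smul]

theorem f_qq (w z z' a : D) : f (qq C w z z' a) = qm (f w) (f z) (f z') (f a) := by
  rw [qq, qm, map_mul, map_mul, ← hA, f_be C hT hA, f_be C hT hA]

theorem f_hr (X w r : D) : f (hr C X w r) = hm (f X) (f w) (f r) := by
  rw [hr, hm, hA, hT, map_add, map_add, map_mul, map_mul, map_mul, map_mul, map_mul, map_sub,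
    map_smul, map_one, algebraMap_smul]

end split

section line

variable {Ω : Type} [Field Ω]

/-- The line in matrices. -/
noncomputable def lineM (A B : Matrix (Fin 3) (Fin 3) Ω) : Matrix (Fin 3) (Fin 3) Ω[X] :=
  (Polynomial.C : Ω →+* Ω[X]).mapMatrix A +
    (X : Ω[X]) • (Polynomial.C : Ω →+* Ω[X]).mapMatrix B

theorem ev1_cst (t : Ω) (A : Matrix (Fin 3) (Fin 3) Ω) :
    (evalRingHom t).mapMatrix ((Polynomial.C : Ω →+* Ω[X]).mapMatrix A) = A := by
  ext i j
  simp

theorem ev1_line (t : Ω) (A B : Matrix (Fin 3) (Fin 3) Ω) :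
    (evalRingHom t).mapMatrix (lineM A B) = A + t • B := by
  rw [lineM, map_add, map_sm, ev1_cst, ev1_cst]
  simp

/-- The norm of `β` along the line. -/
noncomputable def nP (Z A B : Matrix (Fin 3) (Fin 3) Ω) : Ω[X] :=
  (bem ((Polynomial.C : Ω →+* Ω[X]).mapMatrix Z) (lineM A B)).det

theorem nP_eval (Z A B : Matrix (Fin 3) (Fin 3) Ω) (t : Ω) :
    (nP Z A B).eval t = (bem Z (A + t • B)).det := by
  rw [← coe_evalRingHom, nP, RingHom.map_det, map_bem, ev1_cst, ev1_line]

/-- The norm of the intertwiner along the line. -/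
noncomputable def hP (W W' Z Z' A B r : Matrix (Fin 3) (Fin 3) Ω) : Ω[X] :=
  (hm (qm ((Polynomial.C : Ω →+* Ω[X]).mapMatrix W') ((Polynomial.C : Ω →+* Ω[X]).mapMatrix Z)
    ((Polynomial.C : Ω →+* Ω[X]).mapMatrix Z') (lineM A B))
    (qm ((Polynomial.C : Ω →+* Ω[X]).mapMatrix W) ((Polynomial.C : Ω →+* Ω[X]).mapMatrix Z)
    ((Polynomial.C : Ω →+* Ω[X]).mapMatrix Z') (lineM A B))
    ((Polynomial.C : Ω →+* Ω[X]).mapMatrix r)).det

theorem hP_eval (W W' Z Z' A B r : Matrix (Fin 3) (Fin 3) Ω) (t : Ω) :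
    (hP W W' Z Z' A B r).eval t =
      (hm (qm W' Z Z' (A + t • B)) (qm W Z Z' (A + t • B)) r).det := by
  rw [← coe_evalRingHom, hP, RingHom.map_det, map_hm, map_qm, map_qm, ev1_cst, ev1_cst, ev1_cst,
    ev1_cst, ev1_cst, ev1_line]

/-- `hm` is linear in the last variable. -/
def hmL (X w : Matrix (Fin 3) (Fin 3) Ω) :
    Matrix (Fin 3) (Fin 3) Ω →ₗ[Ω] Matrix (Fin 3) (Fin 3) Ω where
  toFun := hm X w
  map_add' r r' := by
    simp only [hm, mul_add, add_mul]
    abel
  map_smul' c r := by
    simp only [hm, mul_smul_comm, smul_mul_assoc, smul_add, RingHom.id_apply]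

end line

section curve

variable {k K D : Type} [Field k] [Infinite k] [Field K] [Algebra k K] [DivisionRing D]
  [Algebra k D] [Algebra K D] [IsScalarTower k K D] (C : Cub K D)
  {Ω : Type} [Field Ω] [Algebra K Ω] {f : D →ₐ[K] Matrix (Fin 3) (Fin 3) Ω}
  (hT : ∀ x, (f x).trace = algebraMap K Ω (C.T x))
  (hN : ∀ x, (f x).det = algebraMap K Ω (C.N x)) (hA : ∀ x, (f x).adjugate = f (C.adj x))

theorem f_line (f : D →ₐ[K] Matrix (Fin 3) (Fin 3) Ω) (a b : D) (t : k) :
    f (a + t • b) = f a + algebraMap K Ω (algebraMap k K t) • f b := by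
  rw [map_add, ← algebraMap_smul K t b, map_smul, ← algebraMap_smul Ω (algebraMap k K t) (f b)]

include hT hN hA

theorem exists_n (k : Type) [Field k] [Infinite k] [Algebra k K] [Algebra k D]
    [IsScalarTower k K D] (z a b : D) : ∃ n : K[X],
    n.map (algebraMap K Ω) = nP (f z) (f a) (f b) ∧
    ∀ t : k, n.eval (algebraMap k K t) = C.N (be C z (a + t • b)) := by
  have h1 : ∀ t : k, (nP (f z) (f a) (f b)).eval (algebraMap K Ω (algebraMap k K t)) =
      algebraMap K Ω (C.N (be C z (a + t • b))) := by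
    intro t
    rw [nP_eval, ← hN, f_be C hT hA, f_line]
  obtain ⟨n, hn⟩ := exists_lift _ _ h1
  refine ⟨n, hn, fun t => (algebraMap K Ω).injective ?_⟩
  rw [← h1 t, ← hn, eval_map, eval₂_at_apply]

theorem exists_P (k : Type) [Field k] [Infinite k] [Algebra k K] [Algebra k D]
    [IsScalarTower k K D] (w w' z z' a b c : D) : ∃ P : K[X],
    P.map (algebraMap K Ω) = hP (f w) (f w') (f z) (f z') (f a) (f b) (f c) ∧
    ∀ t : k, P.eval (algebraMap k K t) =
      C.N (hr C (qq C w' z z' (a + t • b)) (qq C w z z' (a + t • b)) c) := by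
  have h1 : ∀ t : k, (hP (f w) (f w') (f z) (f z') (f a) (f b) (f c)).eval
      (algebraMap K Ω (algebraMap k K t)) =
      algebraMap K Ω (C.N (hr C (qq C w' z z' (a + t • b)) (qq C w z z' (a + t • b)) c)) := by
    intro t
    rw [hP_eval, ← hN, f_hr C hT hA, f_qq C hT hA, f_qq C hT hA, f_line]
  obtain ⟨n, hn⟩ := exists_lift _ _ h1
  refine ⟨n, hn, fun t => (algebraMap K Ω).injective ?_⟩
  rw [← h1 t, ← hn, eval_map, eval₂_at_apply]

variable [IsAlgClosed Ω] [FiniteDimensional K D] [Algebra.IsCentral K D]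

/-- **The certificates of a good line.** -/
theorem exists_cert (k : Type) [Field k] [Infinite k] [Algebra k K] [Algebra k D]
    [IsScalarTower k K D] (hD : finrank K D = 3 ^ 2) {w w' z z' q a b : D}
    (hgood : ∀ t : Ω, GoodPt (f w) (f w') (f z) (f z') (f q) (f a + t • f b)) :
    (∃ u u' : K[X], ∀ t : k, u.eval (algebraMap k K t) * C.N (be C z (a + t • b)) +
      u'.eval (algebraMap k K t) * C.N (be C z' (a + t • b)) = 1) ∧
    ∃ (s : Finset D) (A : D → K[X]) (M : ℕ), ∀ t : k,
      ∑ c ∈ s, (A c).eval (algebraMap k K t) *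
        C.N (hr C (qq C w' z z' (a + t • b)) (qq C w z z' (a + t • b)) c) =
      (C.N (be C z (a + t • b)) * C.N (be C z' (a + t • b))) ^ M := by
  have : Infinite K := Infinite.of_injective _ (algebraMap k K).injective
  obtain ⟨n, hn, hn2⟩ := exists_n C hT hN hA k z a b
  obtain ⟨n', hn', hn2'⟩ := exists_n C hT hN hA k z' a b
  choose P hP hP2 using exists_P C hT hN hA k w w' z z' a b
  constructor
  · have h1 : (1 : K[X]) ∈ Ideal.span (Set.range fun i : Bool => cond i n n') := by
      obtain ⟨M, hM⟩ := null (fun i : Bool => (cond i n n').map (algebraMap K Ω)) 1 (by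
        intro t _
        by_contra hcon
        push Not at hcon
        have h2 := hcon true
        have h3 := hcon false
        apply (hgood t).1
        constructor
        · rw [← nP_eval, ← hn]
          exact h2
        · rw [← nP_eval, ← hn']
          exact h3)
      apply rel_descend (Ω := Ω)
      rw [one_pow] at hM
      rwa [Polynomial.map_one]
    have h2 : (Set.range fun i : Bool => cond i n n') = {n, n'} := by
      ext x
      simp only [Set.mem_range, Bool.exists_bool, cond_false, cond_true, Set.mem_insert_iff,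
        Set.mem_singleton_iff]
      tauto
    rw [h2, Ideal.mem_span_pair] at h1
    obtain ⟨u, u', huu⟩ := h1
    refine ⟨u, u', fun t => ?_⟩
    rw [← hn2, ← hn2', ← eval_mul, ← eval_mul, ← eval_add, huu, eval_one]
  · have h1 : ∃ M : ℕ, (n * n') ^ M ∈ Ideal.span (Set.range P) := by
      obtain ⟨M, hM⟩ := null (fun c : D => (P c).map (algebraMap K Ω))
        ((n * n').map (algebraMap K Ω)) (by
        intro t ht
        rw [Polynomial.map_mul, eval_mul, hn, hn', nP_eval, nP_eval] at ht
        obtain ⟨r, hr⟩ := (hgood t).exists_hm (left_ne_zero_of_mul ht) (right_ne_zero_of_mul ht)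
        by_contra hcon
        push Not at hcon
        apply hr
        apply det_split hD f (hmL _ _)
        intro c
        have := hcon c
        rw [hP, hP_eval] at this
        exact this)
      refine ⟨M, rel_descend (Ω := Ω) _ _ ?_⟩
      rw [Polynomial.map_pow]
      exact hM
    obtain ⟨M, hM⟩ := h1
    obtain ⟨A, hA'⟩ := (Finsupp.mem_span_range_iff_exists_finsupp).mp hM
    refine ⟨A.support, A, M, fun t => ?_⟩
    have h3 := congrArg (Polynomial.eval (algebraMap k K t)) hA'
    rw [eval_pow, eval_mul, hn2, hn2', Finsupp.sum, eval_finsetSum] at h3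
    rw [← h3]
    refine Finset.sum_congr rfl fun c _ => ?_
    rw [smul_eq_mul, eval_mul, hP2]

end curve

end Vale.Agent.P011.H748
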