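import Vale.Agent.P011.H748.N4Curve
import Vale.Agent.P011.H929.Cts

/-!
# Limits along the curve `pt` of the line step
-/

open Module

set_option linter.unusedSectionVars false
set_option linter.unusedSimpArgs false
set_option linter.unusedVariables false

namespace Vale.Agent.P011.H748.Lim

open Vale.Agent.P011.H182 Vale.Agent.P011.H775 Vale.Agent.P011.H948 Vale.Agent.P011.H929
  Vale.Agent.P011.H748

section inv

variable {k D : Type} [Field k] [DivisionRing D] [Algebra k D] {N : ℕ}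
  {B : Basis (Fin N) k D} {a : AbsoluteValue k ℝ} {X0 w0 : D}

theorem near_ne {x0 : D} (h0 : x0 ≠ 0) {x : D} (hx : na B a (x - x0) < na B a x0) : x ≠ 0 := by
  rintro rfl
  rw [zero_sub, na_neg] at hx
  exact lt_irrefl _ hx

/-- Inversion is continuous. -/
theorem inv_cts {x0 : D} (h0 : x0 ≠ 0) {η : ℝ} (hη : 0 < η) : ∃ δ : ℝ, 0 < δ ∧ ∀ x,
    na B a (x - x0) < δ → x ≠ 0 ∧ na B a (x⁻¹ - x0⁻¹) < η := by
  obtain ⟨C, hC, hm⟩ := na_mul B a
  have hp := na_pos B a h0
  obtain ⟨M, hM⟩ : ∃ M, M = na B a x0⁻¹ := ⟨_, rfl⟩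
  have hM0 : 0 < M := by rw [hM]; exact na_pos B a (inv_ne_zero h0)
  refine ⟨min (na B a x0) (min (1 / (2 * C ^ 2 * M)) (η / (4 * C ^ 2 * M ^ 2))),
    lt_min hp (lt_min (by positivity) (by positivity)), fun x hx => ?_⟩
  have hx0 := near_ne h0 (hx.trans_le (min_le_left _ _))
  refine ⟨hx0, ?_⟩
  have h1 := hx.trans_le ((min_le_right _ _).trans (min_le_left _ _))
  have h2 := hx.trans_le ((min_le_right _ _).trans (min_le_right _ _))
  obtain ⟨p, hpd⟩ : ∃ p, p = na B a (x - x0) := ⟨_, rfl⟩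
  have hp0 : 0 ≤ p := by rw [hpd]; exact na_nonneg _ _ _
  rw [← hpd] at h1 h2
  have e : x⁻¹ - x0⁻¹ = -(x⁻¹ * (x - x0) * x0⁻¹) := by
    rw [mul_sub, inv_mul_cancel₀ hx0, sub_mul, one_mul, mul_assoc, mul_inv_cancel₀ h0, mul_one,
      neg_sub]
  obtain ⟨q, hqd⟩ : ∃ q, q = na B a (x⁻¹ - x0⁻¹) := ⟨_, rfl⟩
  have hq0 : 0 ≤ q := by rw [hqd]; exact na_nonneg _ _ _
  have h3 : na B a x⁻¹ ≤ q + M := by
    have := na_add_le B a (x⁻¹ - x0⁻¹) x0⁻¹
    rwa [sub_add_cancel, ← hqd, ← hM] at this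
  have h4 : q ≤ C * (C * (q + M) * p) * M := by
    refine hqd.trans_le ?_
    rw [e, na_neg]
    refine (hm _ _).trans ?_
    rw [← hM]
    refine mul_le_mul_of_nonneg_right (mul_le_mul_of_nonneg_left ?_ (by linarith)) hM0.le
    refine (hm _ _).trans ?_
    rw [← hpd]
    exact mul_le_mul_of_nonneg_right (mul_le_mul_of_nonneg_left h3 (by linarith)) hp0
  rw [← hqd]
  rw [lt_div_iff₀ (by positivity)] at h1 h2
  have h5 : C ^ 2 * M * p ≤ 1 / 2 := by nlinarith
  have h6 : q ≤ C ^ 2 * M * p * q + C ^ 2 * M ^ 2 * p := by nlinarith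
  have h7 : C ^ 2 * M * p * q ≤ 1 / 2 * q := mul_le_mul_of_nonneg_right h5 hq0
  nlinarith

theorem cts_inv {f : D → D → D} (hf : Cts B a X0 w0 f) (h0 : f X0 w0 ≠ 0) :
    Cts B a X0 w0 fun X w => (f X w)⁻¹ := by
  intro η hη
  obtain ⟨δ, hδ, h1⟩ := inv_cts (B := B) (a := a) h0 hη
  obtain ⟨γ, hγ, h2⟩ := hf δ hδ
  exact ⟨γ, hγ, fun X w hX hw => (h1 _ (h2 X w hX hw)).2⟩

end inv

section be

variable {k K D : Type} [Field k] [Field K] [DivisionRing D] [Algebra k K]
  [Algebra k D] [Algebra K D] [IsScalarTower k K D] {N : ℕ}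
  {B : Basis (Fin N) k D} {a : AbsoluteValue k ℝ} {X0 w0 : D} (C : Cub K D)

/-- The trace as a map to the algebra. -/
def TD : D →ₗ[k] D where
  toFun x := C.T x • (1 : D)
  map_add' x y := by rw [map_add, add_smul]
  map_smul' c x := by
    rw [← algebraMap_smul K c x, map_smul, smul_eq_mul, mul_smul, algebraMap_smul, RingHom.id_apply]

theorem cts_T {f : D → D → D} (hf : Cts B a X0 w0 f) :
    Cts B a X0 w0 fun X w => C.T (f X w) • (1 : D) := hf.lin (TD (k := k) C)

theorem cts_cr {f g : D → D → D} (hf : Cts B a X0 w0 f) (hg : Cts B a X0 w0 g) :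
    Cts B a X0 w0 fun X w => C.cr (f X w) (g X w) := by
  have h1 := (((hf.mul hg).add (hg.mul hf)).sub ((cts_T C hf).mul hg)).sub ((cts_T C hg).mul hf)
  have h2 := h1.add (((cts_T C hf).mul (cts_T C hg)).sub (cts_T C (hf.mul hg)))
  convert h2 using 3 with X w
  rw [smul_mul_assoc, one_mul, smul_mul_assoc, one_mul, smul_mul_smul_comm, one_mul, ← sub_smul]
  rfl

theorem cts_adj (h20 : (2 : K) ≠ 0) {f : D → D → D} (hf : Cts B a X0 w0 f) :
    Cts B a X0 w0 fun X w => C.adj (f X w) := by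
  let L : D →ₗ[k] D := (LinearMap.lsmul K D (2 : K)⁻¹).restrictScalars k
  have h1 := (cts_cr C hf hf).lin L
  convert h1 using 3 with X w
  change _ = (2 : K)⁻¹ • C.cr (f X w) (f X w)
  rw [C.cr_self, smul_smul, inv_mul_cancel₀ h20, one_smul]

theorem cts_be (h20 : (2 : K) ≠ 0) (z : D) {f : D → D → D} (hf : Cts B a X0 w0 f) :
    Cts B a X0 w0 fun X w => be C z (f X w) := by
  have hz : Cts B a X0 w0 fun _ _ => z := Cts.const z
  have h1 := (cts_T C (hz.mul (cts_adj C h20 hf))).add ((cts_T C (hz.mul hf)).mul hf)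
  convert h1 using 3 with X w
  rw [smul_mul_assoc, one_mul]
  rfl

/-- `be` vanishes only where both coefficients vanish. -/
theorem be_eq_zero {z a : D} (hz : C.T z = 0) (h0 : be C z a = 0) :
    C.T (z * a) = 0 ∧ C.T (z * C.adj a) = 0 := by
  have h1 : C.T (z * a) = 0 := by
    by_contra hne
    have h2 : a = (-(C.T (z * C.adj a) / C.T (z * a))) • (1 : D) := by
      have h3 : C.T (z * a) • a = -(C.T (z * C.adj a) • (1 : D)) := by
        rw [be] at h0
        exact eq_neg_of_add_eq_zero_right h0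
      have h4 : a = (C.T (z * a))⁻¹ • (C.T (z * a) • a) := by
        rw [smul_smul, inv_mul_cancel₀ hne, one_smul]
      rw [h3, smul_neg, smul_smul] at h4
      rw [neg_smul, div_eq_inv_mul]
      exact h4
    apply hne
    rw [h2, mul_smul_comm, mul_one, map_smul, hz, smul_zero]
  refine ⟨h1, ?_⟩
  rw [be, h1, zero_smul, add_zero] at h0
  exact (smul_eq_zero.mp h0).resolve_right one_ne_zero

/-- `be` has finitely many zeros on a line in a good direction. -/
theorem be_ne_on_line {z b : D} (hz : C.T z = 0) (a : D) (hb : C.T (z * C.adj b) ≠ 0) :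
    {t : k | be C z (a + t • b) = 0}.Finite := by
  classical
  let p : Polynomial K := Polynomial.C (C.T (z * C.adj a)) +
    Polynomial.X * Polynomial.C (C.T (z * C.cr a b)) +
    Polynomial.X ^ 2 * Polynomial.C (C.T (z * C.adj b))
  have hp : p ≠ 0 := by
    intro hp
    apply hb
    have := congrArg (fun q => Polynomial.coeff q 2) hp
    simpa [p, Polynomial.coeff_X_mul, Polynomial.coeff_C, Polynomial.coeff_X_pow_mul'] using this
  refine Set.Finite.of_finite_image (f := algebraMap k K) ?_ (algebraMap k K).injective.injOn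
  refine (p.roots.toFinset.finite_toSet).subset ?_
  rintro _ ⟨r, hr, rfl⟩
  rw [Finset.mem_coe, Multiset.mem_toFinset, Polynomial.mem_roots hp, Polynomial.IsRoot]
  have h1 := (be_eq_zero C hz hr).2
  rw [← algebraMap_smul K r b, C.adj_add, C.adj_smul, C.cr_smul_right, mul_add, mul_add,
    mul_smul_comm, mul_smul_comm, map_add, map_add, map_smul, map_smul, smul_eq_mul,
    smul_eq_mul] at h1
  simp only [p, Polynomial.eval_add, Polynomial.eval_mul, Polynomial.eval_pow, Polynomial.eval_C,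
    Polynomial.eval_X]
  linear_combination h1

end be

section pt

variable {k K D : Type} [Field k] [Field K] [StarRing K] [DivisionRing D] [StarRing D]
  [Algebra k K] [Algebra k D] [Algebra K D] [IsScalarTower k K D] {N : ℕ}
  (B : Basis (Fin N) k D) (a : AbsoluteValue k ℝ) {C : Cub K D} (h : SCub C)
  (hfix : ∀ c : k, star (algebraMap k K c) = algebraMap k K c)

include h hfix

theorem star_lin (c : k) (x : D) : star (c • x) = c • star x := by
  rw [← algebraMap_smul K c x, h.smul, hfix, algebraMap_smul]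

/-- The involution as a linear map. -/
def starL : D →ₗ[k] D where
  toFun := star
  map_add' := star_add
  map_smul' c x := star_lin h hfix c x

/-- **The point of the curve depends continuously on the parameter.** -/
theorem pt_near (h20 : (2 : K) ≠ 0) (z u : D) {a0 : D} (h0 : be C z a0 ≠ 0) {η : ℝ}
    (hη : 0 < η) : ∃ δ : ℝ, 0 < δ ∧ ∀ b : D, na B a (b - a0) < δ → be C z b ≠ 0 ∧
      na B a (u * star (be C z b) * (be C z b)⁻¹ - u * star (be C z a0) * (be C z a0)⁻¹) < η := by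
  have hs : Cts B a a0 a0 fun X _ => X := Cts.fst
  have h1 := cts_be C h20 z hs
  obtain ⟨δ1, hδ1, h2⟩ := h1 _ (na_pos B a h0)
  have h3 := ((Cts.const (B := B) (a := a) (X0 := a0) (w0 := a0) u).mul
    (h1.lin (starL h hfix))).mul (cts_inv h1 h0)
  obtain ⟨δ2, hδ2, h4⟩ := h3 η hη
  refine ⟨min δ1 δ2, lt_min hδ1 hδ2, fun b hb => ?_⟩
  have e0 : na B a (a0 - a0) < min δ1 δ2 := by
    rw [sub_self, na_zero]
    exact lt_min hδ1 hδ2
  exact ⟨near_ne h0 (h2 b a0 (hb.trans_le (min_le_left _ _)) (e0.trans_le (min_le_left _ _))),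
    h4 b a0 (hb.trans_le (min_le_right _ _)) (e0.trans_le (min_le_right _ _))⟩

/-- The point does not change when the parameter is multiplied by an element of `k`. -/
theorem pt_scale (z u : D) {t : k} (ht : t ≠ 0) (b : D) :
    be C z (t • b) = (t ^ 2) • be C z b ∧
      u * star (be C z (t • b)) * (be C z (t • b))⁻¹ = u * star (be C z b) * (be C z b)⁻¹ := by
  have e : be C z (t • b) = (t ^ 2) • be C z b := by
    rw [← algebraMap_smul K t b, be_smul, ← algebraMap_smul K (t ^ 2), map_pow]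
  refine ⟨e, ?_⟩
  have ht2 : t ^ 2 ≠ 0 := pow_ne_zero _ ht
  rw [e, star_lin h hfix, mul_smul_comm, smul_inv₀, smul_mul_smul_comm, mul_inv_cancel₀ ht2,
    one_smul]

/-- **The point of the line `b + t c` for large `t`.** -/
theorem pt_far (h20 : (2 : K) ≠ 0) (z u : D) {c : D} (hc : C.T (z * c) = 0)
    (hc' : C.T (z * C.adj c) ≠ 0) (b : D) {η : ℝ} (hη : 0 < η) :
    ∃ R : ℝ, ∀ t : k, R < a t → be C z (b + t • c) ≠ 0 ∧
      na B a (u * star (be C z (b + t • c)) * (be C z (b + t • c))⁻¹ -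
        (star (C.T (z * C.adj c)) / C.T (z * C.adj c)) • u) < η := by
  have e1 : be C z c = C.T (z * C.adj c) • (1 : D) := by rw [be, hc, zero_smul, add_zero]
  have h0 : be C z c ≠ 0 := by
    rw [e1]
    exact smul_ne_zero hc' one_ne_zero
  have e2 : u * star (be C z c) * (be C z c)⁻¹ =
      (star (C.T (z * C.adj c)) / C.T (z * C.adj c)) • u := by
    rw [e1, h.smul, star_one, mul_smul_comm, mul_one, smul_inv₀, inv_one, smul_mul_smul_comm,
      mul_one, div_eq_mul_inv]
  obtain ⟨δ, hδ, h1⟩ := pt_near B a h hfix h20 z u h0 hη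
  refine ⟨max 0 (na B a b / δ), fun t ht => ?_⟩
  have ht0 : 0 < a t := (le_max_left _ _).trans_lt ht
  have htne : t ≠ 0 := by
    rintro rfl
    rw [map_zero] at ht0
    exact lt_irrefl _ ht0
  have e3 : b + t • c = t • (c + t⁻¹ • b) := by
    rw [smul_add, smul_smul, mul_inv_cancel₀ htne, one_smul, add_comm]
  obtain ⟨e4, e5⟩ := pt_scale h hfix z u htne (c + t⁻¹ • b)
  have h2 : na B a (c + t⁻¹ • b - c) < δ := by
    rw [add_sub_cancel_left, na_smul, map_inv₀]
    have h3 := (le_max_right _ _).trans_lt ht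
    rw [div_lt_iff₀ hδ] at h3
    rw [inv_mul_lt_iff₀ ht0]
    exact h3
  obtain ⟨h4, h5⟩ := h1 _ h2
  rw [e2] at h5
  rw [e3, e5]
  refine ⟨?_, h5⟩
  rw [e4]
  exact smul_ne_zero (pow_ne_zero _ htne) h4

end pt

end Vale.Agent.P011.H748.Lim
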