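import Mathlib

/-!
# Mautner phenomenon, compact orbit form

A point `x` of a (pseudo)metric space on which `SL_n(F)` acts by isometries, whose orbit is totally
bounded and whose orbit map is continuous at `1` along the root subgroups, is fixed by `SL_n(F)`.
No representation theory, no measure theory.
-/

set_option linter.unusedSimpArgs false

namespace Vale.Agent.P011.H748

open Filter Topology Matrix Matrix.SpecialLinearGroup

section Abs

variable {G X : Type*} [Group G] [PseudoMetricSpace X] [MulAction G X] [IsIsometricSMul G X]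

/-- arbitrarily late almost returns of an isometry with totally bounded half orbit -/
theorem exists_return {x : X} {t : G}
    (htb : TotallyBounded (Set.range fun m : ℕ => t ^ m • x)) {ε : ℝ} (hε : 0 < ε) (K : ℕ) :
    ∃ k, K ≤ k ∧ dist (t ^ k • x) x < ε := by
  obtain ⟨S, hS, hcov⟩ := (Metric.totallyBounded_iff.1 htb) (ε / 2) (by positivity)
  have hch : ∀ j : ℕ, ∃ y : S, dist (t ^ (j * (K + 1)) • x) (y : X) < ε / 2 := by
    intro j
    have : t ^ (j * (K + 1)) • x ∈ ⋃ y ∈ S, Metric.ball y (ε / 2) := hcov ⟨_, rfl⟩
    simp only [Set.mem_iUnion, Metric.mem_ball, exists_prop] at this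
    obtain ⟨y, hy, hd⟩ := this
    exact ⟨⟨y, hy⟩, hd⟩
  choose φ hφ using hch
  have : Finite S := hS
  obtain ⟨a, b, hab, heq⟩ := Finite.exists_ne_map_eq_of_infinite φ
  have key : ∀ a b : ℕ, a < b → φ a = φ b → ∃ k, K ≤ k ∧ dist (t ^ k • x) x < ε := by
    intro a b hlt heq
    refine ⟨(b - a) * (K + 1), ?_, ?_⟩
    · have : 1 ≤ b - a := by omega
      nlinarith
    · have h1 : dist (t ^ (a * (K + 1)) • t ^ ((b - a) * (K + 1)) • x)
          (t ^ (a * (K + 1)) • x) < ε := by
        rw [← mul_smul, ← pow_add, ← add_mul, Nat.add_sub_cancel' hlt.le]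
        calc dist (t ^ (b * (K + 1)) • x) (t ^ (a * (K + 1)) • x)
            ≤ dist (t ^ (b * (K + 1)) • x) (φ b : X) + dist (φ b : X) (t ^ (a * (K + 1)) • x) :=
              dist_triangle _ _ _
          _ < ε / 2 + ε / 2 := by
              refine add_lt_add (hφ b) ?_
              rw [dist_comm, ← heq]
              exact hφ a
          _ = ε := by ring
      simpa only [dist_smul] using h1
  rcases lt_or_gt_of_ne hab with h | h
  · exact key a b h heq
  · exact key b a h heq.symm

/-- **Mautner, compact orbit form.** -/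
theorem dist_eq_zero_of_totallyBounded {x : X} {t u : G}
    (htb : TotallyBounded (Set.range fun m : ℕ => t ^ m • x))
    (hu : Tendsto (fun m : ℕ => ((t ^ m)⁻¹ * u * t ^ m) • x) atTop (𝓝 x)) :
    dist (u • x) x = 0 := by
  refine le_antisymm (le_of_forall_pos_le_add fun ε hε => ?_) dist_nonneg
  obtain ⟨K, hK⟩ := (Metric.tendsto_atTop.1 hu) (ε / 3) (by positivity)
  obtain ⟨k, hk, hd⟩ := exists_return htb (show 0 < ε / 3 by positivity) K
  have h1 : dist (u • x) (u • t ^ k • x) < ε / 3 := by
    rw [dist_smul, dist_comm]; exact hd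
  have h2 : dist (u • t ^ k • x) (t ^ k • x) < ε / 3 := by
    have := hK k hk
    rw [← dist_smul (t ^ k)] at this
    simpa only [mul_smul, smul_inv_smul] using this
  have := dist_triangle4 (u • x) (u • t ^ k • x) (t ^ k • x) x
  linarith

end Abs

section MetricAbs

variable {G X : Type*} [Group G] [MetricSpace X] [MulAction G X] [IsIsometricSMul G X]

theorem smul_eq_of_totallyBounded {x : X} {t u : G}
    (htb : TotallyBounded (Set.range fun m : ℕ => t ^ m • x))
    (hu : Tendsto (fun m : ℕ => ((t ^ m)⁻¹ * u * t ^ m) • x) atTop (𝓝 x)) :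
    u • x = x :=
  dist_eq_zero.1 (dist_eq_zero_of_totallyBounded htb hu)

end MetricAbs

section SL

variable {ι F : Type*} [Fintype ι] [DecidableEq ι]

section Field
variable [Field F]

theorem sl_ext {A B : SpecialLinearGroup ι F} (h : coeMonoidHom A = coeMonoidHom B) :
    A = B := coeMonoidHom_injective h

theorem transvection_mul_diag2n {i j : ι} (hij : i ≠ j) (a c : F) (hc : c ≠ 0) :
    transvection hij a * diag2n hij c hc = diag2n hij c hc * transvection hij (a * (c ^ 2)⁻¹) := by
  refine sl_ext ?_
  rw [map_mul, map_mul, coeMonoidHom_apply, coeMonoidHom_apply, coeMonoidHom_apply, diag2n_coe,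
    transvection_coe, transvection_coe]
  refine Matrix.ext fun k l => ?_
  rw [mul_diagonal, diagonal_mul]
  by_cases hk : k = i
  · subst hk
    by_cases hl : l = j
    · subst hl
      simp [hij, Ne.symm hij]
      field_simp
    · by_cases hl' : l = k
      · subst hl'
        simp [hl, Matrix.single_apply, Ne.symm hl]
      · simp [hl, Ne.symm hl, hl', Matrix.single_apply, Matrix.one_apply, Ne.symm hl']
  · by_cases hl : l = k
    · subst hl
      simp [hk, Ne.symm hk, Matrix.single_apply]
    · simp [hk, Ne.symm hk, hl, Ne.symm hl, Matrix.single_apply, Matrix.one_apply]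

theorem diag2n_pow {i j : ι} (hij : i ≠ j) (c : F) (hc : c ≠ 0) (m : ℕ) :
    (diag2n hij c hc) ^ m = diag2n hij (c ^ m) (pow_ne_zero m hc) := by
  refine sl_ext ?_
  rw [map_pow, coeMonoidHom_apply, coeMonoidHom_apply, diag2n_coe, diag2n_coe, diagonal_pow]
  congr 1
  ext k
  by_cases h1 : k = i
  · simp [h1]
  · by_cases h2 : k = j
    · simp [h2, Ne.symm hij]
    · simp [h1, h2]

theorem conj_transvection {i j : ι} (hij : i ≠ j) (a c : F) (hc : c ≠ 0) (m : ℕ) :
    ((diag2n hij c hc) ^ m)⁻¹ * transvection hij a * (diag2n hij c hc) ^ m =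
      transvection hij (a * ((c⁻¹) ^ 2) ^ m) := by
  rw [mul_assoc, inv_mul_eq_iff_eq_mul, diag2n_pow, transvection_mul_diag2n]
  congr 2
  rw [← pow_mul, ← pow_mul, inv_pow, mul_comm 2 m]

theorem diag2n_eq {i j : ι} (hij : i ≠ j) (c : F) (hc : c ≠ 0) :
    diag2n hij c hc = transvection hij c * transvection hij.symm (-c⁻¹) * transvection hij c *
      (transvection hij (-1) * transvection hij.symm 1 * transvection hij (-1)) := by
  have key : ∀ c : F, c ≠ 0 → coeMonoidHom (transvection hij c * transvection hij.symm (-c⁻¹) *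
      transvection hij c : SpecialLinearGroup ι F) =
      1 - single i i 1 - single j j 1 + single i j c - single j i c⁻¹ := by
    intro c hc
    rw [map_mul, map_mul, coeMonoidHom_apply, coeMonoidHom_apply, transvection_coe,
      transvection_coe]
    have hneg : ∀ (a b : ι) (r : F), single a b (-r) = - single a b r := by
      intro a b r
      ext k l
      simp only [Matrix.single_apply, Matrix.neg_apply]
      split_ifs <;> simp
    simp only [mul_add, add_mul, mul_one, one_mul, single_mul_single_same,
      single_mul_single_of_ne _ _ _ _ hij, single_mul_single_of_ne _ _ _ _ hij.symm, mul_neg,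
      neg_mul, mul_inv_cancel₀ hc, inv_mul_cancel₀ hc, add_zero, hneg]
    abel
  refine sl_ext ?_
  rw [map_mul, key c hc]
  have h1 := key (-1) (by simp)
  rw [inv_neg, inv_one, neg_neg] at h1
  rw [h1, coeMonoidHom_apply, diag2n_coe]
  simp only [mul_add, add_mul, mul_sub, sub_mul, mul_one, one_mul, single_mul_single_same,
      single_mul_single_of_ne _ _ _ _ hij, single_mul_single_of_ne _ _ _ _ hij.symm, mul_neg,
      neg_mul, add_zero, single_neg, neg_zero, sub_zero, zero_sub, sub_neg_eq_add, neg_neg]
  refine Matrix.ext fun k l => ?_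
  simp only [diagonal_apply, Matrix.add_apply, Matrix.sub_apply, Matrix.single_apply,
    Matrix.one_apply, Matrix.neg_apply]
  by_cases hk : k = i
  · subst hk
    by_cases hl : k = l
    · subst hl
      simp [hij, Ne.symm hij]
    · simp [hij, Ne.symm hij, hl]
  · by_cases hk' : k = j
    · subst hk'
      by_cases hl : k = l
      · subst hl
        simp [hij, Ne.symm hij]
      · simp [hij, Ne.symm hij, hl]
    · by_cases hl : k = l
      · subst hl
        simp [hk, hk', Ne.symm hk, Ne.symm hk']
      · simp [hk, hk', Ne.symm hk, Ne.symm hk', hl]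

/-- a point fixed by all transvections is fixed by `SL_n(F)` -/
theorem smul_eq_of_transvection [Nontrivial ι] {X : Type*} [MulAction (SpecialLinearGroup ι F) X]
    {x : X} (h : ∀ (i j : ι) (hij : i ≠ j) (a : F), transvection hij a • x = x)
    (g : SpecialLinearGroup ι F) : g • x = x := by
  refine diagonal_transvection_induction' (fun g => g • x = x) g ?_ h ?_
  · intro i j hij c hc
    rw [diag2n_eq hij c hc]
    simp only [mul_smul, h]
  · intro A B hA hB
    rw [mul_smul, hB, hA]

end Field

/-- **Mautner for `SL_n(F)`, compact orbit form.** -/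
theorem SL_smul_eq_of_totallyBounded [Nontrivial ι] [NontriviallyNormedField F] {X : Type*}
    [MetricSpace X] [MulAction (SpecialLinearGroup ι F) X]
    [IsIsometricSMul (SpecialLinearGroup ι F) X] {x : X}
    (htb : TotallyBounded (MulAction.orbit (SpecialLinearGroup ι F) x))
    (hcont : ∀ (i j : ι) (hij : i ≠ j),
      Tendsto (fun a : F => (transvection hij a : SpecialLinearGroup ι F) • x) (𝓝 0) (𝓝 x))
    (g : SpecialLinearGroup ι F) : g • x = x := by
  refine smul_eq_of_transvection (fun i j hij a => ?_) g
  obtain ⟨c, hc1⟩ := NormedField.exists_one_lt_norm F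
  have hc : c ≠ 0 := by
    rintro rfl
    rw [norm_zero] at hc1
    linarith
  refine smul_eq_of_totallyBounded (t := diag2n hij c hc) ?_ ?_
  · exact htb.subset (by rintro _ ⟨m, rfl⟩; exact ⟨_, rfl⟩)
  · simp only [conj_transvection]
    refine (hcont i j hij).comp ?_
    have h0 : Tendsto (fun m : ℕ => ((c⁻¹) ^ 2) ^ m) atTop (𝓝 (0 : F)) := by
      refine tendsto_pow_atTop_nhds_zero_of_norm_lt_one ?_
      rw [norm_pow, norm_inv]
      exact pow_lt_one₀ (by positivity) (inv_lt_one_of_one_lt₀ hc1) (by norm_num)
    simpa using h0.const_mul a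

end SL

end Vale.Agent.P011.H748
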