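import Vale.Agent.P011.H748.N4Spec

/-!
# N4: on generic lines through the base point all points are good at almost all nonsplit places
-/

open Module NumberField IsDedekindDomain

set_option linter.unusedSectionVars false
set_option linter.unusedSimpArgs false
set_option linter.unusedVariables false

namespace Vale.Agent.P011.H748

open Vale.Agent.P011.Arith Vale.Agent.P011.Even Vale.Agent.P011.H182 Vale.Agent.P011.H775
  Vale.Agent.P011.H948 Vale.Agent.P011.H929

section sym

variable {K D : Type} [Field K] [CharZero K] [StarRing K] [DivisionRing D] [StarRing D]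
  [Algebra K D] [FiniteDimensional K D] [Algebra.IsCentral K D] {C : Cub K D} (h : SCub C)
  {s : K} (hs : star s = -s) (hs0 : s ≠ 0) {W : Submodule K D} (hW : ∀ w ∈ W, star w ∈ W)

include h hs hs0 hW

/-- Decomposition in symmetric parts. -/
theorem dec {w : D} (hw : w ∈ W) : ∃ a ∈ W, ∃ b ∈ W, star a = a ∧ star b = b ∧ w = a + s • b := by
  refine ⟨(2 : K)⁻¹ • (w + star w), W.smul_mem _ (W.add_mem hw (hW w hw)),
    (2 * s)⁻¹ • (w - star w), W.smul_mem _ (W.sub_mem hw (hW w hw)), ?_, ?_, ?_⟩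
  · rw [h.smul, star_add, star_star, star_inv₀, star_ofNat, add_comm]
  · rw [h.smul, star_sub, star_star, star_inv₀, star_mul', star_ofNat, hs, mul_neg, inv_neg,
      neg_smul, ← smul_neg, neg_sub]
  · rw [smul_smul, mul_inv, mul_left_comm, mul_inv_cancel₀ hs0, mul_one, ← smul_add]
    have : w + star w + (w - star w) = (2 : K) • w := by rw [two_smul]; abel
    rw [this, smul_smul, inv_mul_cancel₀ two_ne_zero, one_smul]

theorem sym_aniso {n : D} (hw : ∃ w ∈ W, C.T (n * C.adj w) ≠ 0) :
    ∃ a ∈ W, star a = a ∧ C.T (n * C.adj a) ≠ 0 := by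
  obtain ⟨w, hw, hne⟩ := hw
  obtain ⟨a, ha, b, hb, hsa, hsb, rfl⟩ := dec h hs hs0 hW hw
  by_contra hcon
  push Not at hcon
  have h1 := hcon a ha hsa
  have h2 := hcon b hb hsb
  have h3 := hcon (a + b) (W.add_mem ha hb) (by rw [star_add, hsa, hsb])
  rw [C.adj_add, mul_add, mul_add, map_add, map_add, h1, h2, zero_add, zero_add] at h3
  apply hne
  rw [C.adj_add, C.adj_smul, C.cr_smul_right, mul_add, mul_add, mul_smul_comm, mul_smul_comm,
    map_add, map_add, map_smul, map_smul, h1, h2, h3, smul_zero, smul_zero, add_zero, add_zero]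

theorem sym_comm (h9 : finrank K D = 3 ^ 2) (hf : 5 ≤ finrank K W) {u : D}
    (hu : u ∉ Set.range (algebraMap K D)) : ∃ a ∈ W, star a = a ∧ u * a - a * u ≠ 0 := by
  by_contra hcon
  push Not at hcon
  have hle : W ≤ Subalgebra.toSubmodule (Subalgebra.centralizer K {u}) := by
    intro w hw
    obtain ⟨a, ha, b, hb, hsa, hsb, rfl⟩ := dec h hs hs0 hW hw
    have h1 := sub_eq_zero.mp (hcon a ha hsa)
    have h2 := sub_eq_zero.mp (hcon b hb hsb)
    change a + s • b ∈ Subalgebra.centralizer K {u}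
    rw [Subalgebra.mem_centralizer_iff]
    rintro _ rfl
    rw [mul_add, add_mul, mul_smul_comm, smul_mul_assoc, h1, h2]
  have hC1 : Subalgebra.centralizer K {u} ≠ ⊤ := by
    intro h1
    apply noncentral' hu
    intro x
    have : x ∈ Subalgebra.centralizer K {u} := h1 ▸ Algebra.mem_top
    exact ((Subalgebra.mem_centralizer_iff K).mp this u rfl).symm
  have hC2 : Subalgebra.centralizer K {u} ≠ ⊥ := by
    intro h1
    have : u ∈ Subalgebra.centralizer K {u} := by
      rw [Subalgebra.mem_centralizer_iff]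
      rintro _ rfl
      rfl
    rw [h1] at this
    exact hu (Algebra.mem_bot.mp this)
  have h3 := finrank_eq_of_ne (by norm_num : Nat.Prime 3) h9 hC2 hC1
  have h4 := Submodule.finrank_mono hle
  have h5 : finrank K (Subalgebra.toSubmodule (Subalgebra.centralizer K {u})) = 3 := h3
  omega

theorem sym_two (h9 : finrank K D = 3 ^ 2) (hf : 5 ≤ finrank K W) {u u' : D}
    (hu : u ∉ Set.range (algebraMap K D)) (hu' : u' ∉ Set.range (algebraMap K D)) :
    ∃ a ∈ W, star a = a ∧ u * a - a * u ≠ 0 ∧ u' * a - a * u' ≠ 0 := by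
  obtain ⟨a, ha, hsa, h1⟩ := sym_comm h hs hs0 hW h9 hf hu
  obtain ⟨b, hb, hsb, h2⟩ := sym_comm h hs hs0 hW h9 hf hu'
  by_cases h3 : u' * a - a * u' = 0
  · by_cases h4 : u * b - b * u = 0
    · refine ⟨a + b, W.add_mem ha hb, by rw [star_add, hsa, hsb], ?_, ?_⟩
      · have e : u * (a + b) - (a + b) * u = (u * a - a * u) + (u * b - b * u) := by
          rw [mul_add, add_mul]; abel
        rw [e, h4, add_zero]
        exact h1
      · have e : u' * (a + b) - (a + b) * u' = (u' * a - a * u') + (u' * b - b * u') := by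
          rw [mul_add, add_mul]; abel
        rw [e, h3, zero_add]
        exact h2
    · exact ⟨b, hb, hsb, h4, h2⟩
  · exact ⟨a, ha, hsa, h1, h3⟩

end sym

section comb

variable {k K D : Type} [Field k] [Infinite k] [Field K] [DivisionRing D] [Algebra k K]
  [Algebra k D] [Algebra K D] [IsScalarTower k K D]

theorem finite_root (c0 c1 c2 : K) (h0 : c0 ≠ 0) :
    {r : k | c0 + algebraMap k K r * c1 + algebraMap k K r ^ 2 * c2 = 0}.Finite := by
  classical
  let p : Polynomial K := Polynomial.C c0 + Polynomial.X * Polynomial.C c1 +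
    Polynomial.X ^ 2 * Polynomial.C c2
  have hp : p ≠ 0 := by
    intro hp
    apply h0
    have := congrArg (Polynomial.eval 0) hp
    simpa [p] using this
  refine Set.Finite.of_finite_image (f := algebraMap k K) ?_ (algebraMap k K).injective.injOn
  refine (p.roots.toFinset.finite_toSet).subset ?_
  rintro _ ⟨r, hr, rfl⟩
  rw [Finset.mem_coe, Multiset.mem_toFinset, Polynomial.mem_roots hp, Polynomial.IsRoot]
  have hr' : c0 + algebraMap k K r * c1 + algebraMap k K r ^ 2 * c2 = 0 := hr
  simp only [p, Polynomial.eval_add, Polynomial.eval_mul, Polynomial.eval_pow, Polynomial.eval_C,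
    Polynomial.eval_X]
  linear_combination hr'

theorem finite_lin (p q : D) (hq : q ≠ 0) : {r : k | p + r • q = 0}.Finite := by
  refine Set.Subsingleton.finite ?_
  intro r hr r' hr'
  have h1 : p + r • q = 0 := hr
  have h2 : p + r' • q = 0 := hr'
  have h3 : (r - r') • q = 0 := by
    rw [sub_smul, ← add_sub_add_left_eq_sub (r • q) (r' • q) p, h1, h2, sub_self]
  exact sub_eq_zero.mp ((smul_eq_zero.mp h3).resolve_right hq)

end comb

variable {k K D : Type} [Field k] [NumberField k] [Field K] [StarRing K]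
    [DivisionRing D] [StarRing D] [Algebra k K] [Algebra k D] [Algebra K D] [IsScalarTower k K D]
    {d : kˣ} {s : K} {N : ℕ}

/-- `z` is not a scalar times a symmetric element. -/
theorem not_prop {C : Cub K D} (h : SCub C) {x u : D}
    (hx : x * star x = 1) (hxN : C.N x = 1) (hu : u * star u = 1)
    (huc : u ∉ Set.range (algebraMap K D)) (hT : C.T ((x - 1) * u) = 0)
    (hz : (x - 1) * u ≠ 0) {ρ : K} (hρ : ρ ≠ 0) : star ((x - 1) * u) ≠ ρ • ((x - 1) * u) := by
  intro hcon
  obtain ⟨h1, -, h3⟩ := h.same hx hxN hu hT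
  have hu0 := h.ne_zero_of_unitary hu
  have hx0 := h.ne_zero_of_unitary hx
  have hsu := h.star_mul_self hu
  set z := (x - 1) * u with hzd
  have e1 : x * u * star z * u = -z := by
    have e2 : x * u * star z * u = x * (u * star u) * (star x - 1) * u := by
      rw [hzd, star_mul, star_sub, star_one]
      simp only [mul_assoc]
    rw [e2, hu, mul_one, mul_sub, hx, mul_one, hzd, ← neg_mul, neg_sub]
  have e3 : x * u * z * u = (-ρ⁻¹) • z := by
    rw [hcon, mul_smul_comm, smul_mul_assoc] at e1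
    rw [neg_smul, ← smul_neg, ← e1, smul_smul, inv_mul_cancel₀ hρ, one_smul]
  obtain ⟨e, he⟩ : ∃ e, e = -ρ⁻¹ := ⟨_, rfl⟩
  rw [← he] at e3
  have he0 : e ≠ 0 := by rw [he]; exact neg_ne_zero.mpr (inv_ne_zero hρ)
  have e4 : x * u = z * (e • u⁻¹) * z⁻¹ := by
    have e5 : x * u * z = e • (z * u⁻¹) := by
      rw [← smul_mul_assoc, ← e3, mul_assoc (x * u * z), mul_inv_cancel₀ hu0, mul_one]
    rw [mul_smul_comm, smul_mul_assoc, ← smul_mul_assoc, ← e5, mul_assoc, mul_inv_cancel₀ hz,
      mul_one]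
  have hN0 := C.N_ne_zero hu0
  have t1 : C.T u = e * ((C.N u)⁻¹ * C.S u) := by
    rw [← h1, e4, C.T_conj hz, map_smul, C.inv_eq hu0, map_smul, smul_eq_mul, smul_eq_mul]
    rfl
  have n1 : C.N u = e ^ 3 * (C.N u)⁻¹ := by
    conv_lhs => rw [← h3, e4, C.N_conj hz, C.N_smul, C.N_inv]
  have n2 : C.N u ^ 2 = e ^ 3 := by
    rw [sq]
    nth_rewrite 1 [n1]
    rw [mul_assoc, inv_mul_cancel₀ hN0, mul_one]
  apply huc
  refine ⟨C.N u / e, ?_⟩
  have h5 : C.N (u - (C.N u / e) • (1 : D)) = 0 := by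
    rw [N_sub_smul_one, t1]
    have h6 : C.N u - C.N u / e * C.S u + (C.N u / e) ^ 2 * (e * ((C.N u)⁻¹ * C.S u)) -
        (C.N u / e) ^ 3 = C.N u * (e ^ 3 - C.N u ^ 2) / e ^ 3 := by
      field_simp
      ring
    rw [h6, n2, sub_self, mul_zero, zero_div]
  rw [C.N_eq_zero, sub_eq_zero] at h5
  rw [Algebra.algebraMap_eq_smul_one, ← h5]

/-- The subspace of the possible special points. -/
def conds (C : Cub K D) (z z' n b : D) : D →ₗ[K] K × K × K where
  toFun a := (C.T (z * a), C.T (z' * a), C.T (n * C.cr a b))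
  map_add' a a' := by
    simp only [mul_add, map_add, C.cr_add_left, Prod.mk_add_mk]
  map_smul' c a := by
    simp only [mul_smul_comm, map_smul, C.cr_smul_left, RingHom.id_apply, Prod.smul_mk]

theorem finrank_conds [FiniteDimensional K D] (C : Cub K D) (h9 : finrank K D = 3 ^ 2)
    (z z' n b : D) : 5 ≤ finrank K (LinearMap.ker (conds C z z' n b)) := by
  have h1 := LinearMap.finrank_range_add_finrank_ker (conds C z z' n b)
  have h2 := Submodule.finrank_le (LinearMap.range (conds C z z' n b))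
  have h3 : finrank K (K × K × K) = 3 := by simp
  rw [h9] at h1
  omega

theorem mem_conds (C : Cub K D) (z z' n b a : D) : a ∈ LinearMap.ker (conds C z z' n b) ↔
    C.T (z * a) = 0 ∧ C.T (z' * a) = 0 ∧ C.T (n * C.cr a b) = 0 := by
  rw [LinearMap.mem_ker]
  change (C.T (z * a), C.T (z' * a), C.T (n * C.cr a b)) = 0 ↔ _
  rw [Prod.mk_eq_zero, Prod.mk_eq_zero]

theorem T_star' {C : Cub K D} (h : SCub C) (z a : D) : C.T (z * star a) = star (C.T (star z * a)) := by
  rw [← h.T, star_mul, star_star, C.T_comm]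

theorem conds_star {C : Cub K D} (h : SCub C) {z n b : D} (hn : star n = -n) (hb : star b = b)
    {a : D} (ha : a ∈ LinearMap.ker (conds C z (star z) n b)) :
    star a ∈ LinearMap.ker (conds C z (star z) n b) := by
  rw [mem_conds] at ha ⊢
  obtain ⟨h1, h2, h3⟩ := ha
  refine ⟨?_, ?_, ?_⟩
  · rw [T_star' h, h2, star_zero]
  · rw [T_star' h, star_star, h1, star_zero]
  · have e : C.cr (star a) b = star (C.cr a b) := by
      conv_lhs => rw [← hb]
      exact h.cr a b
    rw [e, T_star' h, hn, neg_mul, map_neg, h3, neg_zero, star_zero]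

/-- Existence of the direction at the base point. -/
theorem exists_dir (hS : Setting k K D d s) (C : Cub K D) (h9 : finrank K D = 3 ^ 2)
    {z : D} (hz : z ≠ 0) : ∃ b : D, star b = b ∧ C.T (z * b) = 0 ∧ C.T (z * C.adj b) ≠ 0 := by
  have _ := char_K hS
  have _ := hS.fin
  have _ := hS.cen
  have h : SCub C := sCub_of C h9 hS.star_smul
  obtain ⟨a, ha, hsa, h1⟩ := sym_aniso h hS.star_s (s_ne_zero hS)
    (W := LinearMap.ker (conds C z (star z) 0 0))
    (fun w hw => conds_star h (by rw [star_zero, neg_zero]) (star_zero D) hw) (n := z)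
    (exists_aniso C h9 hz _ (finrank_conds C h9 _ _ _ _))
  exact ⟨a, hsa, ((mem_conds C _ _ _ _ _).mp ha).1, h1⟩

/-- Existence of the special point. -/
theorem exists_special (hS : Setting k K D d s) (C : Cub K D) (h9 : finrank K D = 3 ^ 2)
    {x u : D} (hx : x * star x = 1) (hxN : C.N x = 1) (hu : u * star u = 1)
    (huc : u ∉ Set.range (algebraMap K D)) (hT : C.T ((x - 1) * u) = 0) {b : D}
    (hb : star b = b) (h8 : C.T ((x - 1) * u * b) = 0)
    (h8' : C.T ((x - 1) * u * C.adj b) ≠ 0) :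
    ∃ a : D, star a = a ∧ C.T ((x - 1) * u * a) = 0 ∧
      star (C.T ((x - 1) * u * C.cr a b) / C.T ((x - 1) * u * C.adj b)) =
        C.T ((x - 1) * u * C.cr a b) / C.T ((x - 1) * u * C.adj b) ∧
      star (C.T ((x - 1) * u * C.adj a) / C.T ((x - 1) * u * C.adj b)) ≠
        C.T ((x - 1) * u * C.adj a) / C.T ((x - 1) * u * C.adj b) ∧
      u * a - a * u ≠ 0 ∧ x * u * a - a * (x * u) ≠ 0 := by
  have _ := char_K hS
  have _ := hS.fin
  have _ := hS.cen
  have h : SCub C := sCub_of C h9 hS.star_smul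
  obtain ⟨hT1, hS1', hN1⟩ := h.same hx hxN hu hT
  have hxu := not_range_of_same C huc hT1 hS1' hN1
  set z := (x - 1) * u with hz
  set s8 := C.T (z * C.adj b) with hs8
  have hz0 : z ≠ 0 := by
    intro h0
    rw [hs8, h0, zero_mul, map_zero] at h8'
    exact h8' rfl
  obtain ⟨n, hn⟩ : ∃ n, n = s8⁻¹ • z - (star s8)⁻¹ • star z := ⟨_, rfl⟩
  have hsn : star n = -n := by
    rw [hn, star_sub, h.smul, h.smul, star_inv₀, star_inv₀, star_star, star_star, neg_sub]
  have h8s : star s8 ≠ 0 := star_ne_zero.mpr h8'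
  have hn0 : n ≠ 0 := by
    intro h0
    rw [hn, sub_eq_zero] at h0
    apply not_prop h hx hxN hu huc hT hz0 (ρ := star s8 * s8⁻¹)
      (mul_ne_zero h8s (inv_ne_zero h8'))
    rw [mul_smul, ← hz, h0, smul_smul, mul_inv_cancel₀ h8s, one_smul]
  have hW := fun w (hw : w ∈ LinearMap.ker (conds C z (star z) n b)) =>
    conds_star h hsn hb hw
  have hf := finrank_conds C h9 z (star z) n b
  obtain ⟨a1, ha1, hs1, h1⟩ := sym_aniso h hS.star_s (s_ne_zero hS) hW (n := n)
    (exists_aniso C h9 hn0 _ hf)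
  obtain ⟨a2, ha2, hs2, h2, h3⟩ := sym_two h hS.star_s (s_ne_zero hS) hW h9 hf huc hxu
  -- combine
  have hfin : ({r : k | C.T (n * C.adj a1) + algebraMap k K r * C.T (n * C.cr a1 a2) +
      algebraMap k K r ^ 2 * C.T (n * C.adj a2) = 0} ∪
      ({r : k | (u * a1 - a1 * u) + r • (u * a2 - a2 * u) = 0} ∪
       {r : k | (x * u * a1 - a1 * (x * u)) + r • (x * u * a2 - a2 * (x * u)) = 0})).Finite :=
    (finite_root _ _ _ h1).union ((finite_lin _ _ h2).union (finite_lin _ _ h3))
  obtain ⟨r, hr⟩ := hfin.infinite_compl.nonempty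
  simp only [Set.mem_compl_iff, Set.mem_union, Set.mem_ofPred_eq, not_or] at hr
  obtain ⟨r1, r2, r3⟩ := hr
  have hrs : star (algebraMap k K r) = algebraMap k K r := (hS.fix _).mpr ⟨r, rfl⟩
  obtain ⟨a, haE⟩ : ∃ a, a = a1 + algebraMap k K r • a2 := ⟨_, rfl⟩
  have haW : a ∈ LinearMap.ker (conds C z (star z) n b) := by
    rw [haE]
    exact add_mem ha1 (Submodule.smul_mem _ _ ha2)
  have hsa : star a = a := by rw [haE, star_add, h.smul, hs1, hs2, hrs]
  have hTn : C.T (n * C.adj a) ≠ 0 := by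
    rw [haE, C.adj_add, C.adj_smul, C.cr_smul_right, mul_add, mul_add, mul_smul_comm,
      mul_smul_comm, map_add, map_add, map_smul, map_smul, smul_eq_mul, smul_eq_mul]
    intro h0
    apply r1
    linear_combination h0
  have hcomm : ∀ w : D, w * a - a * w = (w * a1 - a1 * w) + r • (w * a2 - a2 * w) := by
    intro w
    rw [haE, algebraMap_smul, mul_add, add_mul, mul_smul_comm, smul_mul_assoc, smul_sub]
    abel
  obtain ⟨c1, c2, c3⟩ := (mem_conds C _ _ _ _ _).mp haW
  -- the form `T (n ·)` on symmetric elements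
  have hform : ∀ y : D, star y = y → C.T (n * y) = C.T (z * y) / s8 - star (C.T (z * y) / s8) := by
    intro y hy
    rw [hn, sub_mul, smul_mul_assoc, smul_mul_assoc, map_sub, map_smul, map_smul, T_star h hy,
      star_div₀, smul_eq_mul, smul_eq_mul, div_eq_inv_mul, div_eq_inv_mul]
  refine ⟨a, hsa, c1, ?_, ?_, ?_, ?_⟩
  · rw [hform _ (h.cr_symm hsa hb)] at c3
    exact (sub_eq_zero.mp c3).symm
  · intro h0
    apply hTn
    rw [hform _ (h.adj_symm hsa), h0, sub_self]
  · rw [hcomm]
    exact r2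
  · rw [hcomm]
    exact r3

/-- **N4.** Through the base point `u` in the direction `b`: the lines through almost all points
near any target are good. -/
theorem n4 (hS : Setting k K D d s) (C : Cub K D) (h9 : finrank K D = 3 ^ 2)
    (B : Basis (Fin N) k D) {x u b : D} (hx : x * star x = 1) (hxN : C.N x = 1)
    (hu : u * star u = 1) (huc : u ∉ Set.range (algebraMap K D)) (hT : C.T ((x - 1) * u) = 0)
    (hb : star b = b) (h8 : C.T ((x - 1) * u * b) = 0)
    (h8' : C.T ((x - 1) * u * C.adj b) ≠ 0) :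
    ∃ a : D, star a = a ∧ ∀ e : D, star e = e →
      {r : k | ¬ GoodLine C B d x u (e + r • (a - e)) b}.Finite := by
  have _ := char_K hS
  have _ := hS.fin
  have _ := hS.cen
  have h : SCub C := sCub_of C h9 hS.star_smul
  obtain ⟨hT1, hS1', hN1⟩ := h.same hx hxN hu hT
  obtain ⟨a, hsa, c1, c2, c3, c4, c5⟩ := exists_special hS C h9 hx hxN hu huc hT hb h8 h8'
  obtain ⟨Ω, _, _, _, f, hf, fT, fN, fA⟩ := spl_closed C
  have hxu1 : x * u * star (x * u) = 1 := by
    rw [star_mul, mul_assoc, ← mul_assoc u, hu, one_mul, hx]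
  refine ⟨a, hsa, fun e he => ?_⟩
  have hsp := special_good h fT fN fA h9 hsa hb c1 h8 h8' c2 c3 hu hxu1 c4 c5
  have g8 : (bem (f ((x - 1) * u)) (f b)).det ≠ 0 := by
    rw [← f_be C fT fA, fN, be_special C h8, N_smul_one]
    exact (_root_.map_ne_zero _).mpr (pow_ne_zero _ h8')
  have gG : ∀ w : D, w * a - a * w ≠ 0 →
      cd (qm (f w) (f ((x - 1) * u)) (f (star ((x - 1) * u))) (f b)) (f a) ≠ 0 := by
    intro w hw
    rw [← f_qq C fT fA, cd, ← map_mul, ← map_mul, ← map_sub, fN, qq_special h w hb h8,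
      smul_mul_assoc, mul_smul_comm, ← smul_sub]
    exact (_root_.map_ne_zero _).mpr (C.N_ne_zero (smul_ne_zero
      (mul_ne_zero (star_ne_zero.mpr h8') (pow_ne_zero _ h8')) hw))
  have hfin := generic_line g8 (gG u c4) (gG (x * u) c5) hsp (f e)
  have hinj : Function.Injective fun r : k => algebraMap K Ω (algebraMap k K r) :=
    (algebraMap K Ω).injective.comp (algebraMap k K).injective
  refine (hfin.preimage hinj.injOn).subset fun r hr => ?_
  intro hcon
  apply hr
  have hsym : star (e + r • (a - e)) = e + r • (a - e) := by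
    rw [star_add, star_k hS, star_sub, hsa, he]
  refine goodLine_of hS C h9 B hx hxN hu huc hT hsym hb h8 h8' fT fN fA (q := a) fun t => ?_
  rw [f_line, map_sub]
  exact hcon t

end Vale.Agent.P011.H748
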