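import Vale.Agent.P011.H748.N4Fin

/-!
# The special line: points of degree at most two over `K` do not split the algebra
-/

open Module NumberField IsDedekindDomain

set_option linter.unusedSectionVars false
set_option linter.unusedSimpArgs false
set_option linter.unusedVariables false

namespace Vale.Agent.P011.H748

open Vale.Agent.P011.Arith Vale.Agent.P011.Even Vale.Agent.P011.H182 Vale.Agent.P011.H775
  Vale.Agent.P011.H948 Vale.Agent.P011.H929

section quad

variable {K D : Type} [Field K] [DivisionRing D] [Algebra K D] [FiniteDimensional K D]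
  [Algebra.IsCentral K D]

theorem noncentral' {w : D} (hw : w ∉ Set.range (algebraMap K D)) :
    ¬ ∀ x : D, x * w = w * x := by
  intro hx
  apply hw
  have : w ∈ Subalgebra.center K D := Subalgebra.mem_center_iff.mpr hx
  rw [Algebra.IsCentral.center_eq_bot] at this
  exact Algebra.mem_bot.mp this

theorem finrank_adjoin (h : finrank K D = 3 ^ 2) {w : D}
    (hw : w ∉ Set.range (algebraMap K D)) : finrank K (Algebra.adjoin K {w}) = 3 := by
  have hA : Algebra.adjoin K {w} ≠ ⊥ := by
    intro h1
    have : w ∈ Algebra.adjoin K {w} := Algebra.self_mem_adjoin_singleton K w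
    rw [h1] at this
    exact hw (Algebra.mem_bot.mp this)
  have hA2 : Algebra.adjoin K {w} ≠ ⊤ := by
    intro h1
    apply noncentral' hw
    intro x
    have hx : x ∈ Algebra.adjoin K {w} := h1 ▸ Algebra.mem_top
    have hle : Algebra.adjoin K {w} ≤ Subalgebra.centralizer K {w} :=
      Algebra.adjoin_le (by
        rintro _ rfl
        exact (Subalgebra.mem_centralizer_iff K).mpr (by rintro _ rfl; rfl))
    exact ((Subalgebra.mem_centralizer_iff K).mp (hle hx) w rfl).symm
  exact finrank_eq_of_ne (by norm_num : Nat.Prime 3) h hA hA2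

/-- No quadratic equations. -/
theorem no_quad (h : finrank K D = 3 ^ 2) {w : D} (hw : w ∉ Set.range (algebraMap K D))
    {e f : K} (hww : w * w = e • w + f • (1 : D)) : False := by
  have h3 := finrank_adjoin h hw
  have hsub : Subalgebra.toSubmodule (Algebra.adjoin K {w}) ≤ Submodule.span K {1, w} := by
    intro x hx
    have hx' : x ∈ Algebra.adjoin K {w} := hx
    clear hx
    induction hx' using Algebra.adjoin_induction with
    | mem x hx =>
      rw [Set.mem_singleton_iff] at hx
      subst hx
      exact Submodule.subset_span (by simp)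
    | algebraMap c =>
      rw [Algebra.algebraMap_eq_smul_one]
      exact Submodule.smul_mem _ _ (Submodule.subset_span (by simp))
    | add x y hx1 hy1 hx2 hy2 => exact add_mem hx2 hy2
    | mul x y hx1 hy1 hx2 hy2 =>
      obtain ⟨a, b, hab⟩ := Submodule.mem_span_pair.mp hx2
      obtain ⟨a', b', hab'⟩ := Submodule.mem_span_pair.mp hy2
      have e : x * y = (a * a' + b * b' * f) • (1 : D) +
          (a * b' + b * a' + b * b' * e) • w := by
        have e0 : x * y = (a * a') • (1 : D) + (a * b' + b * a') • w + (b * b') • (w * w) := by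
          rw [← hab, ← hab']
          simp only [add_mul, mul_add, smul_mul_assoc, mul_smul_comm, one_mul, mul_one]
          module
        rw [e0, hww]
        module
      rw [e]
      exact Submodule.mem_span_pair.mpr ⟨_, _, rfl⟩
  have h8 : finrank K (Algebra.adjoin K {w}) ≤ finrank K (Submodule.span K ({1, w} : Set D)) :=
    Submodule.finrank_mono hsub
  have h9 : finrank K (Submodule.span K ({1, w} : Set D)) ≤ 2 := by
    classical
    have h10 := finrank_span_finset_le_card (R := K) (M := D) ({1, w} : Finset D)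
    rw [Finset.coe_insert, Finset.coe_singleton] at h10
    exact h10.trans Finset.card_le_two
  omega

end quad

section irr

variable {K D Ω : Type} [Field K] [DivisionRing D] [Algebra K D] [FiniteDimensional K D]
  [Algebra.IsCentral K D] (C : Cub K D) [Field Ω] [Algebra K Ω]
  {f : D →ₐ[K] Matrix (Fin 3) (Fin 3) Ω}
  (hT : ∀ x, (f x).trace = algebraMap K Ω (C.T x))
  (hN : ∀ x, (f x).det = algebraMap K Ω (C.N x)) (hA : ∀ x, (f x).adjugate = f (C.adj x))

theorem det_sub_mat (M : Matrix (Fin 3) (Fin 3) Ω) (t : Ω) :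
    (t • (1 : Matrix (Fin 3) (Fin 3) Ω) - M).det =
      t ^ 3 - M.trace * t ^ 2 + M.adjugate.trace * t - M.det := by
  rw [Matrix.det_fin_three, Matrix.adjugate_fin_three, Matrix.trace_fin_three,
    Matrix.trace_fin_three, Matrix.det_fin_three]
  simp
  ring

include hT hN hA

/-- A root of degree at most two of `N (p + t p')` is a scalar. -/
theorem irr (h9 : finrank K D = 3 ^ 2) {p p' : D} (hp : p ≠ 0) {t : Ω}
    (hdet : (f p + t • f p').det = 0) {a b c : K} (hc : c ≠ 0)
    (hq : algebraMap K Ω a + t * algebraMap K Ω b + t ^ 2 * algebraMap K Ω c = 0) :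
    ∃ e : K, p = e • p' ∧ t = -algebraMap K Ω e := by
  have hinj : Function.Injective (algebraMap K Ω) := (algebraMap K Ω).injective
  have hp' : p' ≠ 0 := by
    rintro rfl
    rw [map_zero, smul_zero, add_zero, hN, map_eq_zero] at hdet
    exact C.N_ne_zero hp hdet
  obtain ⟨m, hm⟩ : ∃ m : D, m = -(p * p'⁻¹) := ⟨_, rfl⟩
  have hpm : p = -(m * p') := by
    rw [hm, neg_mul, neg_neg, mul_assoc, inv_mul_cancel₀ hp', mul_one]
  have h1 : (t • (1 : Matrix (Fin 3) (Fin 3) Ω) - f m).det = 0 := by
    have e : f p + t • f p' = (t • (1 : Matrix (Fin 3) (Fin 3) Ω) - f m) * f p' := by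
      rw [hpm, map_neg, map_mul, sub_mul, smul_mul_assoc, one_mul]
      abel
    rw [e, Matrix.det_mul, hN] at hdet
    exact (mul_eq_zero.mp hdet).resolve_right ((_root_.map_ne_zero _).mpr (C.N_ne_zero hp'))
  -- it is enough that `m` is a scalar
  have key : m ∈ Set.range (algebraMap K D) → ∃ e : K, p = e • p' ∧ t = -algebraMap K Ω e := by
    rintro ⟨e, he⟩
    refine ⟨-e, ?_, ?_⟩
    · rw [hpm, ← he, neg_smul, Algebra.smul_def]
    · have h2 : t • (1 : Matrix (Fin 3) (Fin 3) Ω) - f m =
          (t - algebraMap K Ω e) • (1 : Matrix (Fin 3) (Fin 3) Ω) := by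
        rw [← he, AlgHom.commutes, sub_smul, IsScalarTower.algebraMap_apply K Ω,
          Algebra.algebraMap_eq_smul_one (A := Matrix (Fin 3) (Fin 3) Ω)]
      rw [h2, Matrix.det_smul, Matrix.det_one, mul_one] at h1
      have h3 := (pow_eq_zero_iff (n := Fintype.card (Fin 3)) (by simp)).mp h1
      rw [map_neg, neg_neg]
      exact sub_eq_zero.mp h3
  apply key
  by_contra hmr
  by_cases ht : t ∈ Set.range (algebraMap K Ω)
  · obtain ⟨e, rfl⟩ := ht
    apply hmr
    have h2 : algebraMap K Ω e • (1 : Matrix (Fin 3) (Fin 3) Ω) - f m = f (e • (1 : D) - m) := by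
      rw [map_sub, map_smul, map_one, algebraMap_smul]
    rw [h2, hN, map_eq_zero, C.N_eq_zero, sub_eq_zero] at h1
    exact ⟨e, by rw [Algebra.algebraMap_eq_smul_one, h1]⟩
  · have hc' : algebraMap K Ω c ≠ 0 := (_root_.map_ne_zero _).mpr hc
    have ht2 : t ^ 2 = algebraMap K Ω (-(b / c)) * t + algebraMap K Ω (-(a / c)) := by
      rw [map_neg, map_neg, map_div₀, map_div₀]
      field_simp
      linear_combination hq
    have h2 := h1
    rw [det_sub_mat, hT, hN, hA, hT] at h2
    change _ - _ + algebraMap K Ω (C.S m) * t - _ = 0 at h2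
    set β := -(b / c) with hβ
    set α := -(a / c) with hα
    have lin : ∀ y z : K, algebraMap K Ω y * t + algebraMap K Ω z = 0 → y = 0 ∧ z = 0 := by
      intro y z hyz
      have hy : y = 0 := by
        by_contra hy
        apply ht
        refine ⟨-(z / y), ?_⟩
        have hy' : algebraMap K Ω y ≠ 0 := (_root_.map_ne_zero _).mpr hy
        rw [map_neg, map_div₀]
        field_simp
        linear_combination -hyz
      rw [hy, map_zero, zero_mul, zero_add, map_eq_zero] at hyz
      exact ⟨hy, hyz⟩
    have h3 : algebraMap K Ω (β ^ 2 + α - C.T m * β + C.S m) * t +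
        algebraMap K Ω (α * β - C.T m * α - C.N m) = 0 := by
      simp only [map_add, map_sub, map_mul, map_pow]
      linear_combination h2 + (-t + algebraMap K Ω (C.T m) - algebraMap K Ω β) * ht2
    obtain ⟨h4, h5⟩ := lin _ _ h3
    have h6 : (m * m - β • m - α • (1 : D)) * (m - (C.T m - β) • (1 : D)) = 0 := by
      have h7 := C.cayley m
      have h8 : (m * m - β • m - α • (1 : D)) * (m - (C.T m - β) • (1 : D)) =
          (m * m * m - C.T m • (m * m) + C.S m • m - C.N m • (1 : D)) -
            (β ^ 2 + α - C.T m * β + C.S m) • m - (α * β - C.T m * α - C.N m) • (1 : D) := by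
        simp only [sub_mul, mul_sub, smul_mul_assoc, mul_smul_comm, one_mul, mul_one]
        module
      rw [h8, h7, h4, h5, zero_smul, zero_smul, sub_zero, sub_zero]
    rcases mul_eq_zero.mp h6 with h7 | h7
    · apply no_quad h9 hmr (e := β) (f := α)
      rw [sub_sub] at h7
      exact sub_eq_zero.mp h7
    · apply hmr
      exact ⟨C.T m - β, by rw [Algebra.algebraMap_eq_smul_one]; exact (sub_eq_zero.mp h7).symm⟩

theorem adj_line (a b : D) (t : Ω) : (f a + t • f b).adjugate =
    f (C.adj a) + t • f (C.cr a b) + t ^ 2 • f (C.adj b) := by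
  rw [mat_adj_add, hA, Matrix.adjugate_smul, hA, Cub.cr, hT, Matrix.trace_smul, hT,
    mul_smul_comm, smul_mul_assoc, Matrix.trace_smul, ← map_mul, hT]
  simp only [map_add, map_sub, map_mul, map_smul, map_one, smul_eq_mul, Fintype.card_fin,
    ← algebraMap_smul Ω (C.T a), ← algebraMap_smul Ω (C.T b),
    ← algebraMap_smul Ω (C.T a * C.T b - C.T (a * b))]
  norm_num
  module

theorem bem_line {z a b : D} (hza : C.T (z * a) = 0) (hzb : C.T (z * b) = 0) (t : Ω) :
    bem (f z) (f a + t • f b) = (algebraMap K Ω (C.T (z * C.adj a)) +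
      t * algebraMap K Ω (C.T (z * C.cr a b)) + t ^ 2 * algebraMap K Ω (C.T (z * C.adj b))) •
        (1 : Matrix (Fin 3) (Fin 3) Ω) := by
  have h1 : tam (f z) (f a + t • f b) = 0 := by
    rw [tam, mul_add, mul_smul_comm, Matrix.trace_add, Matrix.trace_smul, ← map_mul, ← map_mul,
      hT, hT, hza, hzb]
    simp
  have h2 : sgm (f z) (f a + t • f b) = algebraMap K Ω (C.T (z * C.adj a)) +
      t * algebraMap K Ω (C.T (z * C.cr a b)) + t ^ 2 * algebraMap K Ω (C.T (z * C.adj b)) := by
    rw [sgm, adj_line C hT hN hA, mul_add, mul_add, mul_smul_comm, mul_smul_comm,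
      Matrix.trace_add, Matrix.trace_add, Matrix.trace_smul, Matrix.trace_smul, ← map_mul,
      ← map_mul, ← map_mul, hT, hT, hT, smul_eq_mul, smul_eq_mul]
  rw [bem, h1, h2, zero_smul, add_zero]

end irr

end Vale.Agent.P011.H748
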