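import Vale.Agent.P011.H748.N4Poly

/-!
# The curve on the unitary group given by a line of symmetric elements: generic lines avoid the
degenerate locus
-/

open Matrix Polynomial Module

set_option linter.unusedSectionVars false
set_option linter.unusedSimpArgs false

namespace Vale.Agent.P011.H748

open Vale.Agent.P011.H775

section defs

variable {R S : Type*} [CommRing R] [CommRing S] (φ : R →+* S)

/-- `σ(X) = tr (Z X^#)`. -/
def sgm (Z X : Matrix (Fin 3) (Fin 3) R) : R := (Z * X.adjugate).trace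

/-- `τ(X) = tr (Z X)`. -/
def tam (Z X : Matrix (Fin 3) (Fin 3) R) : R := (Z * X).trace

/-- `β(X) = σ(X) + τ(X) X`. -/
def bem (Z X : Matrix (Fin 3) (Fin 3) R) : Matrix (Fin 3) (Fin 3) R :=
  sgm Z X • (1 : Matrix (Fin 3) (Fin 3) R) + tam Z X • X

/-- `W β'(X) β(X)^#`. -/
def qm (W Z Z' X : Matrix (Fin 3) (Fin 3) R) : Matrix (Fin 3) (Fin 3) R :=
  W * bem Z' X * (bem Z X).adjugate

theorem map_tr (A : Matrix (Fin 3) (Fin 3) R) : φ A.trace = (φ.mapMatrix A).trace := by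
  rw [Matrix.trace_fin_three, Matrix.trace_fin_three, map_add, map_add]
  rfl

theorem map_sm (a : R) (A : Matrix (Fin 3) (Fin 3) R) :
    φ.mapMatrix (a • A) = φ a • φ.mapMatrix A := by
  ext i j
  simp

theorem map_sgm (Z X : Matrix (Fin 3) (Fin 3) R) :
    φ (sgm Z X) = sgm (φ.mapMatrix Z) (φ.mapMatrix X) := by
  rw [sgm, sgm, map_tr, map_mul, RingHom.map_adjugate]

theorem map_tam (Z X : Matrix (Fin 3) (Fin 3) R) :
    φ (tam Z X) = tam (φ.mapMatrix Z) (φ.mapMatrix X) := by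
  rw [tam, tam, map_tr, map_mul]

theorem map_bem (Z X : Matrix (Fin 3) (Fin 3) R) :
    φ.mapMatrix (bem Z X) = bem (φ.mapMatrix Z) (φ.mapMatrix X) := by
  rw [bem, bem, map_add, map_sm, map_sm, map_one, map_sgm, map_tam]

theorem map_qm (W Z Z' X : Matrix (Fin 3) (Fin 3) R) :
    φ.mapMatrix (qm W Z Z' X) = qm (φ.mapMatrix W) (φ.mapMatrix Z) (φ.mapMatrix Z')
      (φ.mapMatrix X) := by
  rw [qm, qm, map_mul, map_mul, map_bem, RingHom.map_adjugate, map_bem]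

theorem map_hm (X w r : Matrix (Fin 3) (Fin 3) R) :
    φ.mapMatrix (hm X w r) = hm (φ.mapMatrix X) (φ.mapMatrix w) (φ.mapMatrix r) := by
  rw [hm, hm, map_add, map_add, map_mul, map_mul, map_mul, map_mul, map_mul, map_sub, map_sm,
    map_one, map_tr, RingHom.map_adjugate]

/-- The commutator determinant. -/
def cd (A B : Matrix (Fin 3) (Fin 3) R) : R := (A * B - B * A).det

theorem map_cd (A B : Matrix (Fin 3) (Fin 3) R) :
    φ (cd A B) = cd (φ.mapMatrix A) (φ.mapMatrix B) := by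
  rw [cd, cd, RingHom.map_det, map_sub, map_mul, map_mul]

theorem comm_bem (Z X : Matrix (Fin 3) (Fin 3) R) : X * bem Z X = bem Z X * X := by
  rw [bem, mul_add, add_mul, mul_smul_comm, mul_smul_comm, smul_mul_assoc, smul_mul_assoc,
    mul_one, one_mul]

theorem comm_adj_bem (Z X : Matrix (Fin 3) (Fin 3) R) :
    X * (bem Z X).adjugate = (bem Z X).adjugate * X := by
  have h : Commute X (bem Z X) := comm_bem Z X
  rw [mat_cayley]
  exact (((h.mul_right h).sub_right (h.smul_right _)).add_right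
    ((Commute.one_right _).smul_right _)).eq

theorem cd_qm (W Z Z' X : Matrix (Fin 3) (Fin 3) R) :
    cd (qm W Z Z' X) X = cd W X * (bem Z' X).det * (bem Z X).det ^ 2 := by
  have h : qm W Z Z' X * X - X * qm W Z Z' X = (W * X - X * W) * bem Z' X * (bem Z X).adjugate := by
    rw [qm, mul_assoc (W * bem Z' X), ← comm_adj_bem, ← mul_assoc, mul_assoc W, ← comm_bem,
      sub_mul, sub_mul]
    simp only [mul_assoc]
  rw [cd, h, Matrix.det_mul, Matrix.det_mul, Matrix.det_adjugate, cd]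
  rfl

end defs

section goodpt

variable {Ω : Type*} [Field Ω]

/-- The point is not in the degenerate locus. -/
def GoodPt (W W' Z Z' q X : Matrix (Fin 3) (Fin 3) Ω) : Prop :=
  ¬ ((bem Z X).det = 0 ∧ (bem Z' X).det = 0) ∧
  ¬ (cd (qm W Z Z' X) q = 0 ∧ cd W X = 0) ∧
  ¬ (cd (qm W' Z Z' X) q = 0 ∧ cd W' X = 0)

theorem GoodPt.exists_hm [IsAlgClosed Ω] {W W' Z Z' q X : Matrix (Fin 3) (Fin 3) Ω}
    (h : GoodPt W W' Z Z' q X) (h1 : (bem Z X).det ≠ 0) (h2 : (bem Z' X).det ≠ 0) :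
    ∃ r, (hm (qm W' Z Z' X) (qm W Z Z' X) r).det ≠ 0 := by
  by_contra hcon
  push Not at hcon
  have key : ∀ V, (∃ m : Ω, (qm V Z Z' X - m • (1 : Matrix (Fin 3) (Fin 3) Ω)).adjugate = 0) →
      cd (qm V Z Z' X) q = 0 ∧ cd V X = 0 := by
    rintro V ⟨m, hm⟩
    refine ⟨det_comm_of_adj' hm q, ?_⟩
    have h3 : cd (qm V Z Z' X) X = 0 := det_comm_of_adj' hm X
    rw [cd_qm] at h3
    exact (mul_eq_zero.mp ((mul_eq_zero.mp h3).resolve_right (pow_ne_zero _ h1))).resolve_right h2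
  rcases H748.exists_hm _ _ hcon with h3 | h3
  · exact h.2.2 (key _ h3)
  · exact h.2.1 (key _ h3)

end goodpt

section line

variable {R : Type*} [CommRing R]

theorem Top.lift {d : ℕ} {p : R[X]} {a : R} (hp : Top d p a) : Top (d + 1) p 0 :=
  ⟨hp.1.trans (Nat.le_succ _), coeff_eq_zero_of_natDegree_lt (Nat.lt_succ_of_le hp.1)⟩

theorem TopM.lift {d : ℕ} {P : Matrix (Fin 3) (Fin 3) R[X]} {A : Matrix (Fin 3) (Fin 3) R}
    (hP : TopM d P A) : TopM (d + 1) P 0 := fun i j => (hP i j).lift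

theorem topM_one : TopM 0 (1 : Matrix (Fin 3) (Fin 3) R[X]) 1 := by
  have := topM_C (1 : Matrix (Fin 3) (Fin 3) R)
  rwa [map_one] at this

theorem TopM.bem {P : Matrix (Fin 3) (Fin 3) R[X]} {A : Matrix (Fin 3) (Fin 3) R}
    (hP : TopM 1 P A) (Z : Matrix (Fin 3) (Fin 3) R) :
    TopM 2 (H748.bem ((C : R →+* R[X]).mapMatrix Z) P) (H748.bem Z A) := by
  have hZ := topM_C Z
  have h1 : Top 2 (sgm ((C : R →+* R[X]).mapMatrix Z) P) (sgm Z A) :=
    ((hZ.mul hP.adj).trace).cast rfl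
  have h2 : Top 1 (tam ((C : R →+* R[X]).mapMatrix Z) P) (tam Z A) :=
    ((hZ.mul hP).trace).cast rfl
  exact ((TopM.smul h1 topM_one).cast rfl).add ((TopM.smul h2 hP).cast rfl)

theorem TopM.qm {P : Matrix (Fin 3) (Fin 3) R[X]} {A : Matrix (Fin 3) (Fin 3) R}
    (hP : TopM 1 P A) (W Z Z' : Matrix (Fin 3) (Fin 3) R) :
    TopM 6 (H748.qm ((C : R →+* R[X]).mapMatrix W) ((C : R →+* R[X]).mapMatrix Z)
      ((C : R →+* R[X]).mapMatrix Z') P) (H748.qm W Z Z' A) :=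
  (((topM_C W).mul (hP.bem Z')).mul (hP.bem Z).adj).cast rfl

theorem TopM.cd {d : ℕ} {P : Matrix (Fin 3) (Fin 3) R[X]} {A : Matrix (Fin 3) (Fin 3) R}
    (hP : TopM d P A) (q : Matrix (Fin 3) (Fin 3) R) :
    Top (d + d + d) (H748.cd P ((C : R →+* R[X]).mapMatrix q)) (H748.cd A q) :=
  (((hP.mul (topM_C q)).cast (Nat.add_zero d)).sub
    (((topM_C q).mul hP).cast (Nat.zero_add d))).det

end line

section generic

variable {Ω : Type*} [Field Ω] [IsAlgClosed Ω]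

theorem ev_cst (s t : Ω) (A : Matrix (Fin 3) (Fin 3) Ω) :
    (ev s t).mapMatrix ((C : Ω[X] →+* Ω[X][X]).mapMatrix ((C : Ω →+* Ω[X]).mapMatrix A)) = A := by
  ext i j
  simp [ev]

/-- **Generic lines are good.** -/
theorem generic_line {W W' Z Z' q X1 X8 : Matrix (Fin 3) (Fin 3) Ω}
    (h8 : (bem Z X8).det ≠ 0) (hG : cd (qm W Z Z' X8) q ≠ 0) (hG' : cd (qm W' Z Z' X8) q ≠ 0)
    (hsp : ∀ t : Ω, GoodPt W W' Z Z' q (X1 + t • X8)) (E : Matrix (Fin 3) (Fin 3) Ω) :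
    {s : Ω | ¬ ∀ t : Ω, GoodPt W W' Z Z' q (E + s • (X1 - E) + t • X8)}.Finite := by
  let c1 : Matrix (Fin 3) (Fin 3) Ω → Matrix (Fin 3) (Fin 3) Ω[X] := (C : Ω →+* Ω[X]).mapMatrix
  let c2 : Matrix (Fin 3) (Fin 3) Ω[X] → Matrix (Fin 3) (Fin 3) Ω[X][X] :=
    (C : Ω[X] →+* Ω[X][X]).mapMatrix
  let Y : Matrix (Fin 3) (Fin 3) Ω[X][X] :=
    c2 (c1 E + (X : Ω[X]) • (c1 X1 - c1 E)) + (X : Ω[X][X]) • c2 (c1 X8)
  have hY : TopM 1 Y (c1 X8) := by
    have h1 : TopM 1 (c2 (c1 E + (X : Ω[X]) • (c1 X1 - c1 E))) 0 := (topM_C _).lift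
    have h2 : Top 1 (X : Ω[X][X]) 1 := ⟨natDegree_X_le, coeff_X_one⟩
    have h3 : TopM 1 ((X : Ω[X][X]) • c2 (c1 X8)) ((1 : Ω[X]) • c1 X8) :=
      (TopM.smul h2 (topM_C _)).cast rfl
    have h4 := h1.add h3
    rwa [zero_add, one_smul] at h4
  have hev : ∀ s t : Ω, (ev s t).mapMatrix Y = E + s • (X1 - E) + t • X8 := by
    intro s t
    have e1 : ev s t (C X) = s := by simp [ev]
    have e2 : ev s t X = t := by simp [ev]
    change (ev s t).mapMatrix ((C : Ω[X] →+* Ω[X][X]).mapMatrix ((C : Ω →+* Ω[X]).mapMatrix E +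
      (X : Ω[X]) • ((C : Ω →+* Ω[X]).mapMatrix X1 - (C : Ω →+* Ω[X]).mapMatrix E)) +
      (X : Ω[X][X]) • (C : Ω[X] →+* Ω[X][X]).mapMatrix ((C : Ω →+* Ω[X]).mapMatrix X8)) = _
    rw [map_add, map_add, map_add, map_sm, map_sm, map_sm, map_sub, map_sub, ev_cst, ev_cst,
      ev_cst, e1, e2]
  have hev1 : ∀ t : Ω, (ev 1 t).mapMatrix Y = X1 + t • X8 := by
    intro t
    rw [hev, one_smul, add_sub_cancel]
  have hcc : ∀ (s t : Ω) (A : Matrix (Fin 3) (Fin 3) Ω), (ev s t).mapMatrix (c2 (c1 A)) = A :=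
    ev_cst
  -- the three pairs
  have hn : Top 6 (bem (c2 (c1 Z)) Y).det (C (bem Z X8).det) := by
    have := (hY.bem (c1 Z)).det
    have e : (bem (c1 Z) (c1 X8)).det = C (bem Z X8).det := by
      rw [RingHom.map_det, map_bem]
    rw [e] at this
    exact this
  have hGt : ∀ V : Matrix (Fin 3) (Fin 3) Ω,
      Top 18 (cd (qm (c2 (c1 V)) (c2 (c1 Z)) (c2 (c1 Z')) Y) (c2 (c1 q)))
        (C (cd (qm V Z Z' X8) q)) := by
    intro V
    have := (hY.qm (c1 V) (c1 Z) (c1 Z')).cd (c1 q)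
    have e : cd (qm (c1 V) (c1 Z) (c1 Z') (c1 X8)) (c1 q) = C (cd (qm V Z Z' X8) q) := by
      rw [map_cd, map_qm]
    rw [e] at this
    exact this
  have evn : ∀ (s t : Ω) (A : Matrix (Fin 3) (Fin 3) Ω),
      ev s t (bem (c2 (c1 A)) Y).det = (bem A (E + s • (X1 - E) + t • X8)).det := by
    intro s t A
    rw [RingHom.map_det, map_bem, hcc, hev]
  have evG : ∀ (s t : Ω) (V : Matrix (Fin 3) (Fin 3) Ω),
      ev s t (cd (qm (c2 (c1 V)) (c2 (c1 Z)) (c2 (c1 Z')) Y) (c2 (c1 q))) =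
        cd (qm V Z Z' (E + s • (X1 - E) + t • X8)) q := by
    intro s t V
    rw [map_cd, map_qm, hcc, hcc, hcc, hcc, hev]
  have evF : ∀ (s t : Ω) (V : Matrix (Fin 3) (Fin 3) Ω),
      ev s t (cd (c2 (c1 V)) Y) = cd V (E + s • (X1 - E) + t • X8) := by
    intro s t V
    rw [map_cd, hcc, hev]
  have hX1 : ∀ t : Ω, E + (1 : Ω) • (X1 - E) + t • X8 = X1 + t • X8 := by
    intro t
    rw [one_smul, add_sub_cancel]
  have g1 := generic (g := (bem (c2 (c1 Z')) Y).det) h8 hn 1 (fun t => by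
    rw [evn, evn, hX1]
    exact (hsp t).1)
  have g2 := generic (g := cd (c2 (c1 W)) Y) hG (hGt W) 1 (fun t => by
    rw [evG, evF, hX1]
    exact (hsp t).2.1)
  have g3 := generic (g := cd (c2 (c1 W')) Y) hG' (hGt W') 1 (fun t => by
    rw [evG, evF, hX1]
    exact (hsp t).2.2)
  refine (g1.union (g2.union g3)).subset fun s hs => ?_
  simp only [Set.mem_union, Set.mem_ofPred_eq] at hs ⊢
  push Not at hs
  obtain ⟨t, ht⟩ := hs
  by_contra hcon
  push Not at hcon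
  apply ht
  refine ⟨?_, ?_, ?_⟩
  · rintro ⟨a, b⟩
    exact hcon.1 t (by rw [evn]; exact a) (by rw [evn]; exact b)
  · rintro ⟨a, b⟩
    exact hcon.2.1 t (by rw [evG]; exact a) (by rw [evF]; exact b)
  · rintro ⟨a, b⟩
    exact hcon.2.2 t (by rw [evG]; exact a) (by rw [evF]; exact b)

end generic

end Vale.Agent.P011.H748
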