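import Vale.Agent.P011.H775.Cub
import Mathlib.LinearAlgebra.Matrix.ToLinearEquiv
import Mathlib.GroupTheory.CosetCover
import Mathlib.FieldTheory.IsAlgClosed.Basic

/-!
# Intertwiners of matrices of size three

If neither `w` nor `X` is a scalar plus a matrix of rank at most one, then some element
`X² r + X r (w - tr w) + r w^#` is invertible.
-/

open Matrix Polynomial

set_option linter.unusedSectionVars false
set_option linter.unusedSimpArgs false

namespace Vale.Agent.P011.H748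

open Vale.Agent.P011.H775

section comm

variable {R : Type*} [CommRing R]

/-- The intertwiner attached to `r`. -/
def hm (X w r : Matrix (Fin 3) (Fin 3) R) : Matrix (Fin 3) (Fin 3) R :=
  X * X * r + X * r * (w - w.trace • (1 : Matrix (Fin 3) (Fin 3) R)) + r * w.adjugate

theorem det_eq_zero_of_adj {A : Matrix (Fin 3) (Fin 3) R} (hA : A.adjugate = 0) : A.det = 0 := by
  have h := A.mul_adjugate
  rw [hA, mul_zero] at h
  have h2 := congrFun (congrFun h 0) 0
  simpa using h2.symm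

theorem det_comm_of_adj {A : Matrix (Fin 3) (Fin 3) R} (hA : A.adjugate = 0)
    (q : Matrix (Fin 3) (Fin 3) R) : (A * q - q * A).det = 0 := by
  have h0 := det_eq_zero_of_adj hA
  have h1 : (-(q * A)).adjugate = 0 := by
    rw [← neg_one_smul R (q * A), Matrix.adjugate_smul, Matrix.adjugate_mul_distrib, hA, zero_mul,
      smul_zero]
  rw [sub_eq_add_neg, mat_det_add, h1, Matrix.adjugate_mul_distrib, hA, Matrix.det_mul, h0,
    ← neg_one_smul R (q * A), Matrix.det_smul, Matrix.det_mul, h0]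
  simp

theorem det_comm_of_adj' {W : Matrix (Fin 3) (Fin 3) R} {m : R}
    (hA : (W - m • (1 : Matrix (Fin 3) (Fin 3) R)).adjugate = 0)
    (q : Matrix (Fin 3) (Fin 3) R) : (W * q - q * W).det = 0 := by
  have := det_comm_of_adj hA q
  rwa [sub_mul, mul_sub, smul_mul_assoc, mul_smul_comm, one_mul, mul_one, sub_sub_sub_cancel_right]
    at this

theorem hm_eq_mul (X w : Matrix (Fin 3) (Fin 3) R) (u φ : Fin 3 → R) :
    hm X w (vecMulVec u φ) = (Matrix.of ![u, X *ᵥ u, X *ᵥ (X *ᵥ u)])ᵀ *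
      !![w.adjugate.trace, -w.trace, 1; -w.trace, 1, 0; 1, 0, 0] *
        Matrix.of ![φ, φ ᵥ* w, (φ ᵥ* w) ᵥ* w] := by
  have h1 : X * X * vecMulVec u φ = vecMulVec (X *ᵥ (X *ᵥ u)) φ := by
    rw [mul_vecMulVec, ← Matrix.mulVec_mulVec]
  have h2 : X * vecMulVec u φ * (w - w.trace • (1 : Matrix (Fin 3) (Fin 3) R)) =
      vecMulVec (X *ᵥ u) (φ ᵥ* w - w.trace • φ) := by
    rw [mul_vecMulVec, vecMulVec_mul, Matrix.vecMul_sub, Matrix.vecMul_smul, Matrix.vecMul_one]
  have h3 : vecMulVec u φ * w.adjugate =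
      vecMulVec u ((φ ᵥ* w) ᵥ* w - w.trace • (φ ᵥ* w) + w.adjugate.trace • φ) := by
    rw [vecMulVec_mul]
    conv_lhs => rw [mat_cayley w]
    rw [Matrix.vecMul_add, Matrix.vecMul_sub, Matrix.vecMul_smul, Matrix.vecMul_smul,
      Matrix.vecMul_one, Matrix.vecMul_vecMul]
  rw [hm, h1, h2, h3]
  generalize φ ᵥ* w = φ1
  generalize φ1 ᵥ* w = φ2
  generalize X *ᵥ u = u1
  generalize X *ᵥ u1 = u2
  ext i j
  simp [Matrix.mul_apply, Fin.sum_univ_three, vecMulVec_apply]
  ring

theorem hm_det (X w : Matrix (Fin 3) (Fin 3) R) (u φ : Fin 3 → R) :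
    (hm X w (vecMulVec u φ)).det = -((Matrix.of ![u, X *ᵥ u, X *ᵥ (X *ᵥ u)]).det *
        (Matrix.of ![φ, φ ᵥ* w, (φ ᵥ* w) ᵥ* w]).det) := by
  rw [hm_eq_mul, Matrix.det_mul, Matrix.det_mul, Matrix.det_transpose]
  have : (!![w.adjugate.trace, -w.trace, 1; -w.trace, 1, 0; 1, 0, 0] :
      Matrix (Fin 3) (Fin 3) R).det = -1 := by
    rw [Matrix.det_fin_three]
    simp
  rw [this]
  ring

end comm

section cyc

variable {Ω : Type*} [Field Ω] [IsAlgClosed Ω]

theorem adj_sub_smul (W : Matrix (Fin 3) (Fin 3) Ω) (m : Ω) :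
    (W - m • (1 : Matrix (Fin 3) (Fin 3) Ω)).adjugate = W * W + (m - W.trace) • W +
      (W.adjugate.trace - m * W.trace + m ^ 2) • (1 : Matrix (Fin 3) (Fin 3) Ω) := by
  rw [Matrix.adjugate_fin_three, Matrix.adjugate_fin_three, Matrix.trace_fin_three,
    Matrix.trace_fin_three]
  ext i j
  fin_cases i <;> fin_cases j <;>
    simp [Matrix.mul_apply, Fin.sum_univ_three] <;> ring

/-- A matrix which is not a scalar plus a matrix of rank at most one has a cyclic vector. -/
theorem exists_cyc (W : Matrix (Fin 3) (Fin 3) Ω)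
    (h : ∀ m : Ω, (W - m • (1 : Matrix (Fin 3) (Fin 3) Ω)).adjugate ≠ 0) :
    ∃ u : Fin 3 → Ω, (Matrix.of ![u, W *ᵥ u, W *ᵥ (W *ᵥ u)]).det ≠ 0 := by
  classical
  set P := W.charpoly with hP
  have hPd : P.natDegree = 3 := by
    rw [hP, Matrix.charpoly_natDegree_eq_dim]
    rfl
  have hP0 : P ≠ 0 := by
    intro h0
    rw [h0, natDegree_zero] at hPd
    norm_num at hPd
  -- a vector outside of the finitely many kernels
  obtain ⟨u, hu⟩ : ∃ u : Fin 3 → Ω, ∀ m ∈ P.roots.toFinset,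
      (W - m • (1 : Matrix (Fin 3) (Fin 3) Ω)).adjugate *ᵥ u ≠ 0 := by
    have := Subspace.biUnion_ne_univ_of_top_notMem (k := Ω) (E := Fin 3 → Ω)
      (s := P.roots.toFinset.image fun m =>
        LinearMap.ker (Matrix.mulVecLin (W - m • (1 : Matrix (Fin 3) (Fin 3) Ω)).adjugate)) (by
        intro hmem
        rw [Finset.mem_image] at hmem
        obtain ⟨m, -, hm⟩ := hmem
        rw [LinearMap.ker_eq_top] at hm
        apply h m
        ext i j
        have := congrFun (LinearMap.congr_fun hm (Pi.single j 1)) i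
        simpa using this)
    obtain ⟨u, hu⟩ := (Set.ne_univ_iff_exists_notMem _).mp this
    refine ⟨u, fun m hm h0 => hu ?_⟩
    rw [Set.mem_iUnion₂]
    exact ⟨_, Finset.mem_image_of_mem _ hm, h0⟩
  refine ⟨u, fun hdet => ?_⟩
  obtain ⟨c, hc0, hc⟩ := Matrix.exists_vecMul_eq_zero_iff.mpr hdet
  have hc' : c 0 • u + c 1 • (W *ᵥ u) + c 2 • (W *ᵥ (W *ᵥ u)) = 0 := by
    have e : c ᵥ* Matrix.of ![u, W *ᵥ u, W *ᵥ (W *ᵥ u)] =
        c 0 • u + c 1 • (W *ᵥ u) + c 2 • (W *ᵥ (W *ᵥ u)) := by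
      ext i
      simp [Matrix.vecMul, dotProduct, Fin.sum_univ_three]
    rw [← e, hc]
  set p : Ω[X] := C (c 0) + C (c 1) * X + C (c 2) * X ^ 2 with hp
  have hp0 : p ≠ 0 := by
    intro h0
    apply hc0
    have e0 := congrArg (fun q => Polynomial.coeff q 0) h0
    have e1 := congrArg (fun q => Polynomial.coeff q 1) h0
    have e2 := congrArg (fun q => Polynomial.coeff q 2) h0
    simp [hp, coeff_X, coeff_C] at e0 e1 e2
    ext i
    fin_cases i
    · exact e0
    · exact e1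
    · exact e2
  have hpd : p.natDegree ≤ 2 := by
    rw [hp]
    compute_degree
  have hpu : (aeval W p) *ᵥ u = 0 := by
    rw [hp]
    simp only [map_add, map_mul, aeval_C, aeval_X, map_pow, Matrix.add_mulVec]
    rw [← Algebra.smul_def, ← Algebra.smul_def, Algebra.algebraMap_eq_smul_one, smul_mulVec,
      smul_mulVec, smul_mulVec, one_mulVec, sq, ← Matrix.mulVec_mulVec]
    exact hc'
  have hPu : aeval W P = 0 := Matrix.aeval_self_charpoly W
  set g := EuclideanDomain.gcd p P with hg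
  have hgu : (aeval W g) *ᵥ u = 0 := by
    rw [hg, EuclideanDomain.gcd_eq_gcd_ab, map_add, map_mul, map_mul, hPu, zero_mul, add_zero]
    have : aeval W p * aeval W (EuclideanDomain.gcdA p P) =
        aeval W (EuclideanDomain.gcdA p P) * aeval W p := by
      rw [← map_mul, mul_comm, map_mul]
    rw [this, ← Matrix.mulVec_mulVec, hpu, Matrix.mulVec_zero]
  obtain ⟨r, hr⟩ := EuclideanDomain.gcd_dvd_right p P
  rw [← hg] at hr
  have hg0 : g ≠ 0 := by
    intro h0
    rw [h0, zero_mul] at hr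
    exact hP0 hr
  have hr0 : r ≠ 0 := by
    intro h0
    rw [h0, mul_zero] at hr
    exact hP0 hr
  have hgd : g.natDegree ≤ 2 :=
    (natDegree_le_of_dvd (EuclideanDomain.gcd_dvd_left p P) hp0).trans hpd
  have hrd : r.degree ≠ 0 := by
    intro h0
    have h1 : r.natDegree = 0 := natDegree_eq_of_degree_eq_some h0
    have h2 := natDegree_mul hg0 hr0
    rw [← hr, hPd, h1] at h2
    omega
  obtain ⟨m, hm⟩ := IsAlgClosed.exists_root r hrd
  obtain ⟨r', hr'⟩ := dvd_iff_isRoot.mpr hm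
  have hPm : P.IsRoot m := by
    rw [IsRoot, hr, eval_mul, hm, mul_zero]
  have hmem : m ∈ P.roots.toFinset := by
    rw [Multiset.mem_toFinset, mem_roots hP0]
    exact hPm
  have hk : P = (X - C m) * (X ^ 2 + C (m - W.trace) * X +
      C (W.adjugate.trace - m * W.trace + m ^ 2)) := by
    have h1 : P = X ^ 3 - C W.trace * X ^ 2 + C W.adjugate.trace * X - C W.det := by
      rw [hP, mat_charpoly]
    have h2 : W.det = m ^ 3 - W.trace * m ^ 2 + W.adjugate.trace * m := by
      have := hPm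
      rw [h1, IsRoot] at this
      simp at this
      linear_combination -this
    rw [h1, h2]
    simp only [map_add, map_sub, map_mul, map_pow]
    ring
  have hk2 : X ^ 2 + C (m - W.trace) * X + C (W.adjugate.trace - m * W.trace + m ^ 2) =
      r' * g := by
    have h1 : (X - C m) * (X ^ 2 + C (m - W.trace) * X +
        C (W.adjugate.trace - m * W.trace + m ^ 2)) = (X - C m) * (r' * g) := by
      rw [← hk, hr, hr']
      ring
    exact mul_left_cancel₀ (X_sub_C_ne_zero m) h1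
  apply hu m hmem
  have e : (W - m • (1 : Matrix (Fin 3) (Fin 3) Ω)).adjugate =
      aeval W (X ^ 2 + C (m - W.trace) * X + C (W.adjugate.trace - m * W.trace + m ^ 2)) := by
    rw [adj_sub_smul]
    simp only [map_add, map_mul, aeval_C, aeval_X, map_pow]
    rw [← Algebra.smul_def, sq W, ← map_pow, ← map_add, Algebra.algebraMap_eq_smul_one]
  rw [e, hk2, map_mul, ← Matrix.mulVec_mulVec, hgu, Matrix.mulVec_zero]

theorem exists_cyc' (W : Matrix (Fin 3) (Fin 3) Ω)
    (h : ∀ m : Ω, (W - m • (1 : Matrix (Fin 3) (Fin 3) Ω)).adjugate ≠ 0) :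
    ∃ φ : Fin 3 → Ω, (Matrix.of ![φ, φ ᵥ* W, (φ ᵥ* W) ᵥ* W]).det ≠ 0 := by
  obtain ⟨u, hu⟩ := exists_cyc Wᵀ (fun m h0 => h m (by
    have e : Wᵀ - m • (1 : Matrix (Fin 3) (Fin 3) Ω) =
        (W - m • (1 : Matrix (Fin 3) (Fin 3) Ω))ᵀ := by
      rw [Matrix.transpose_sub, Matrix.transpose_smul, Matrix.transpose_one]
    rw [e, ← Matrix.adjugate_transpose] at h0
    exact Matrix.transpose_eq_zero.mp h0))
  refine ⟨u, ?_⟩
  rwa [Matrix.mulVec_transpose, Matrix.mulVec_transpose] at hu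

/-- **Existence of an invertible intertwiner.** -/
theorem exists_hm (X w : Matrix (Fin 3) (Fin 3) Ω)
    (h : ∀ r, (hm X w r).det = 0) :
    (∃ m : Ω, (X - m • (1 : Matrix (Fin 3) (Fin 3) Ω)).adjugate = 0) ∨
      ∃ m : Ω, (w - m • (1 : Matrix (Fin 3) (Fin 3) Ω)).adjugate = 0 := by
  by_contra hcon
  push Not at hcon
  obtain ⟨u, hu⟩ := exists_cyc X hcon.1
  obtain ⟨φ, hφ⟩ := exists_cyc' w hcon.2
  have := h (vecMulVec u φ)
  rw [hm_det, neg_eq_zero] at this
  exact mul_ne_zero hu hφ this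

end cyc

end Vale.Agent.P011.H748
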