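import Vale.Agent.P011.H748.N4Mat
import Vale.Agent.P011.H268.Nrd
import Mathlib.RingTheory.Polynomial.Resultant.Basic
import Mathlib.Algebra.MvPolynomial.Funext
import Mathlib.LinearAlgebra.Lagrange

/-!
# Polynomial tools: top coefficients, generic absence of common zeros, powers in an ideal
-/

open Matrix Polynomial Module

set_option linter.unusedSectionVars false
set_option linter.unusedSimpArgs false

namespace Vale.Agent.P011.H748

open Vale.Agent.P011.H775

section top

variable {R : Type*} [CommRing R]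

/-- Degree at most `d` with coefficient `a` in degree `d`. -/
def Top (d : ℕ) (p : R[X]) (a : R) : Prop := p.natDegree ≤ d ∧ p.coeff d = a

theorem Top.mul {d e : ℕ} {p q : R[X]} {a b : R} (hp : Top d p a) (hq : Top e q b) :
    Top (d + e) (p * q) (a * b) :=
  ⟨natDegree_mul_le_of_le hp.1 hq.1, by
    rw [coeff_mul_add_eq_of_natDegree_le hp.1 hq.1, hp.2, hq.2]⟩

theorem Top.add {d : ℕ} {p q : R[X]} {a b : R} (hp : Top d p a) (hq : Top d q b) :
    Top d (p + q) (a + b) :=
  ⟨natDegree_add_le_of_degree_le hp.1 hq.1, by rw [coeff_add, hp.2, hq.2]⟩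

theorem Top.neg {d : ℕ} {p : R[X]} {a : R} (hp : Top d p a) : Top d (-p) (-a) :=
  ⟨by rw [natDegree_neg]; exact hp.1, by rw [coeff_neg, hp.2]⟩

theorem Top.sub {d : ℕ} {p q : R[X]} {a b : R} (hp : Top d p a) (hq : Top d q b) :
    Top d (p - q) (a - b) := by
  rw [sub_eq_add_neg, sub_eq_add_neg]
  exact hp.add hq.neg

theorem top_C (a : R) : Top 0 (C a) a := ⟨by rw [natDegree_C], by rw [coeff_C_zero]⟩

theorem top_zero (d : ℕ) : Top d (0 : R[X]) 0 := ⟨by simp, by simp⟩

theorem Top.cast {d e : ℕ} {p : R[X]} {a : R} (hp : Top d p a) (h : d = e) : Top e p a := h ▸ hp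

/-- The same for matrices. -/
def TopM (d : ℕ) (P : Matrix (Fin 3) (Fin 3) R[X]) (A : Matrix (Fin 3) (Fin 3) R) : Prop :=
  ∀ i j, Top d (P i j) (A i j)

variable {d e : ℕ} {P Q : Matrix (Fin 3) (Fin 3) R[X]} {A B : Matrix (Fin 3) (Fin 3) R}

theorem TopM.mul (hP : TopM d P A) (hQ : TopM e Q B) : TopM (d + e) (P * Q) (A * B) := by
  intro i j
  rw [Matrix.mul_apply, Matrix.mul_apply, Fin.sum_univ_three, Fin.sum_univ_three]
  exact (((hP i 0).mul (hQ 0 j)).add ((hP i 1).mul (hQ 1 j))).add ((hP i 2).mul (hQ 2 j))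

theorem TopM.add (hP : TopM d P A) (hQ : TopM d Q B) : TopM d (P + Q) (A + B) :=
  fun i j => (hP i j).add (hQ i j)

theorem TopM.sub (hP : TopM d P A) (hQ : TopM d Q B) : TopM d (P - Q) (A - B) :=
  fun i j => (hP i j).sub (hQ i j)

theorem TopM.smul {p : R[X]} {a : R} (hp : Top e p a) (hP : TopM d P A) :
    TopM (e + d) (p • P) (a • A) := fun i j => hp.mul (hP i j)

theorem topM_C (A : Matrix (Fin 3) (Fin 3) R) :
    TopM 0 ((C : R →+* R[X]).mapMatrix A) A := fun _ _ => top_C _

theorem TopM.cast (hP : TopM d P A) (h : d = e) : TopM e P A := h ▸ hP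

theorem TopM.trace (hP : TopM d P A) : Top d P.trace A.trace := by
  rw [Matrix.trace_fin_three, Matrix.trace_fin_three]
  exact ((hP 0 0).add (hP 1 1)).add (hP 2 2)

theorem TopM.adj (hP : TopM d P A) : TopM (d + d) P.adjugate A.adjugate := by
  intro i j
  rw [Matrix.adjugate_fin_three, Matrix.adjugate_fin_three]
  have hm : ∀ i j k l i' j' k' l', Top (d + d) (P i j * P k l - P i' j' * P k' l')
      (A i j * A k l - A i' j' * A k' l') := fun i j k l i' j' k' l' =>
    ((hP i j).mul (hP k l)).sub ((hP i' j').mul (hP k' l'))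
  have hm' : ∀ i j k l i' j' k' l', Top (d + d) (-(P i j * P k l) + P i' j' * P k' l')
      (-(A i j * A k l) + A i' j' * A k' l') := fun i j k l i' j' k' l' =>
    ((hP i j).mul (hP k l)).neg.add ((hP i' j').mul (hP k' l'))
  fin_cases i <;> fin_cases j
  · exact hm 1 1 2 2 1 2 2 1
  · exact hm' 0 1 2 2 0 2 2 1
  · exact hm 0 1 1 2 0 2 1 1
  · exact hm' 1 0 2 2 1 2 2 0
  · exact hm 0 0 2 2 0 2 2 0
  · exact hm' 0 0 1 2 0 2 1 0
  · exact hm 1 0 2 1 1 1 2 0
  · exact hm' 0 0 2 1 0 1 2 0
  · exact hm 0 0 1 1 0 1 1 0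

theorem TopM.det (hP : TopM d P A) : Top (d + d + d) P.det A.det := by
  rw [Matrix.det_fin_three, Matrix.det_fin_three]
  have hm : ∀ i j k l i' j', Top (d + d + d) (P i j * P k l * P i' j')
      (A i j * A k l * A i' j') := fun i j k l i' j' =>
    ((hP i j).mul (hP k l)).mul (hP i' j')
  exact (((((hm _ _ _ _ _ _).sub (hm _ _ _ _ _ _)).sub (hm _ _ _ _ _ _)).add
    (hm _ _ _ _ _ _)).add (hm _ _ _ _ _ _)).sub (hm _ _ _ _ _ _)

end top

section generic

variable {Ω : Type*} [Field Ω] [IsAlgClosed Ω]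

/-- Evaluation: `s` is the inner variable, `t` the outer one. -/
noncomputable def ev (s t : Ω) : Ω[X][X] →+* Ω :=
  (evalRingHom s).comp (evalRingHom (C t))

theorem ev_eq (s t : Ω) (p : Ω[X][X]) : ev s t p = (p.map (evalRingHom s)).eval t := by
  have h : ev s t = (evalRingHom t).comp (mapRingHom (evalRingHom s)) := by
    ext <;> simp [ev]
  rw [h]
  rfl

/-- **Generic absence of common zeros.** -/
theorem generic {f g : Ω[X][X]} {a : Ω} (ha : a ≠ 0) {m : ℕ} (hf : Top m f (C a)) (s1 : Ω)
    (h : ∀ t, ¬ (ev s1 t f = 0 ∧ ev s1 t g = 0)) :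
    {s0 : Ω | ∃ t, ev s0 t f = 0 ∧ ev s0 t g = 0}.Finite := by
  classical
  have hn : g.natDegree ≤ g.natDegree + 1 := Nat.le_succ _
  obtain ⟨p, q, -, -, hpq⟩ := exists_mul_add_mul_eq_C_resultant f g hf.1 hn (Or.inr (by simp))
  set r := resultant f g m (g.natDegree + 1) with hr
  have hr0 : r ≠ 0 := by
    intro h0
    have h1 := congrArg (evalRingHom s1) h0
    rw [hr, ← resultant_map_map, map_zero] at h1
    set f1 := f.map (evalRingHom s1) with hf1
    set g1 := g.map (evalRingHom s1) with hg1
    have hc : f1.coeff m = a := by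
      rw [hf1, coeff_map, hf.2]
      simp
    have hd : f1.natDegree = m := by
      apply le_antisymm (natDegree_map_le.trans hf.1)
      apply le_natDegree_of_ne_zero
      rw [hc]
      exact ha
    have hl : f1.leadingCoeff ≠ 0 := by
      rw [leadingCoeff, hd, hc]
      exact ha
    rw [← hd, resultant_eq_prod_eval f1 g1 _ (natDegree_map_le.trans hn) (IsAlgClosed.splits f1)]
      at h1
    have h2 := (mul_eq_zero.mp h1).resolve_left (pow_ne_zero _ hl)
    rw [Multiset.prod_eq_zero_iff, Multiset.mem_map] at h2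
    obtain ⟨t, ht, ht2⟩ := h2
    refine h t ⟨?_, ?_⟩
    · rw [ev_eq]
      exact (mem_roots'.mp ht).2
    · rw [ev_eq]
      exact ht2
  refine (r.roots.toFinset.finite_toSet).subset fun s0 hs0 => ?_
  obtain ⟨t, h1, h2⟩ := hs0
  have h3 := congrArg (ev s0 t) hpq
  rw [map_add, map_mul, map_mul, h1, h2, zero_mul, zero_mul, add_zero] at h3
  rw [Finset.mem_coe, Multiset.mem_toFinset, mem_roots hr0, IsRoot]
  rw [h3, ev, RingHom.comp_apply, coe_evalRingHom, coe_evalRingHom, eval_C]

/-- A polynomial vanishing at the common zeros of a family has a power in the ideal. -/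
theorem null {ι : Type*} (P : ι → Ω[X]) (h : Ω[X])
    (hh : ∀ t, h.eval t ≠ 0 → ∃ c, (P c).eval t ≠ 0) :
    ∃ M : ℕ, h ^ M ∈ Ideal.span (Set.range P) := by
  set I := Ideal.span (Set.range P) with hI
  obtain ⟨g, hg⟩ := (inferInstance : I.IsPrincipal)
  have hPg : ∀ c, g ∣ P c := by
    intro c
    have : P c ∈ I := Ideal.subset_span ⟨c, rfl⟩
    rw [hg] at this
    exact Ideal.mem_span_singleton.mp this
  have hroot : ∀ t, g.eval t = 0 → h.eval t = 0 := by
    intro t ht
    by_contra hne
    obtain ⟨c, hc⟩ := hh t hne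
    obtain ⟨e, he⟩ := hPg c
    rw [he, eval_mul, ht, zero_mul] at hc
    exact hc rfl
  by_cases hg0 : g = 0
  · refine ⟨1, ?_⟩
    have : h = 0 := by
      apply Polynomial.funext
      intro t
      rw [hroot t (by rw [hg0, eval_zero]), eval_zero]
    rw [this, zero_pow one_ne_zero]
    exact Ideal.zero_mem _
  · have key : ∀ s : Multiset Ω, (∀ r ∈ s, h.eval r = 0) →
        (s.map (fun r => X - C r)).prod ∣ h ^ (Multiset.card s) := by
      intro s
      induction s using Multiset.induction_on with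
      | empty => intro _; simp
      | cons a s ih =>
        intro hs
        rw [Multiset.map_cons, Multiset.prod_cons, Multiset.card_cons, pow_succ']
        refine mul_dvd_mul ?_ (ih fun r hr => hs r (Multiset.mem_cons_of_mem hr))
        exact dvd_iff_isRoot.mpr (hs a (Multiset.mem_cons_self _ _))
    refine ⟨Multiset.card g.roots, ?_⟩
    have h1 := key g.roots fun r hr => hroot r (mem_roots'.mp hr).2
    have h2 := (IsAlgClosed.splits g).eq_prod_roots
    rw [hg]
    apply Ideal.mem_span_singleton.mpr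
    obtain ⟨e, he⟩ := h1
    refine ⟨C (g.leadingCoeff)⁻¹ * e, ?_⟩
    rw [he]
    have h3 : C g.leadingCoeff * C (g.leadingCoeff)⁻¹ = (1 : Ω[X]) := by
      rw [← C_mul, mul_inv_cancel₀ (leadingCoeff_ne_zero.mpr hg0), C_1]
    have h4 : g * (C (g.leadingCoeff)⁻¹ * e) =
        (C g.leadingCoeff * C (g.leadingCoeff)⁻¹) * ((g.roots.map (fun r => X - C r)).prod * e) := by
      nth_rewrite 1 [h2]
      ring
    rw [h4, h3, one_mul]

end generic

section density

variable {K Ω : Type*} [Field K] [Infinite K] [Field Ω] [Algebra K Ω]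

/-- A determinant vanishing at the rational points of a space vanishes identically. -/
theorem det_dense {n : ℕ} (A : Fin n → Matrix (Fin 3) (Fin 3) Ω)
    (h : ∀ y : Fin n → K, (∑ i, algebraMap K Ω (y i) • A i).det = 0) (y : Fin n → Ω) :
    (∑ i, y i • A i).det = 0 := by
  let Φ : MvPolynomial (Fin n) Ω :=
    (∑ i, (MvPolynomial.X i : MvPolynomial (Fin n) Ω) •
      (MvPolynomial.C : Ω →+* MvPolynomial (Fin n) Ω).mapMatrix (A i)).det
  have hev : ∀ y : Fin n → Ω, MvPolynomial.eval y Φ = (∑ i, y i • A i).det := by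
    intro y
    rw [RingHom.map_det]
    congr 1
    ext i j
    simp [Matrix.sum_apply]
  have hinj : Function.Injective (algebraMap K Ω) := (algebraMap K Ω).injective
  have h0 : Φ = 0 := by
    apply MvPolynomial.funext_set (fun _ => Set.range (algebraMap K Ω))
      (fun _ => Set.infinite_range_of_injective hinj)
    intro x hx
    have hx' : ∀ i, ∃ z, algebraMap K Ω z = x i := fun i => hx i (Set.mem_univ _)
    choose z hz using hx'
    have : x = fun i => algebraMap K Ω (z i) := funext fun i => (hz i).symm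
    rw [this, hev, map_zero]
    exact h z
  rw [← hev, h0, map_zero]

end density

section split

variable {K D Ω : Type*} [Field K] [Infinite K] [Ring D] [Algebra K D] [Field Ω] [Algebra K Ω]
  [Algebra.IsCentral K D] [IsSimpleRing D] [FiniteDimensional K D]

/-- A linear family of determinants vanishing on `D` vanishes on matrices. -/
theorem det_split (hD : finrank K D = 3 ^ 2) (f : D →ₐ[K] Matrix (Fin 3) (Fin 3) Ω)
    (L : Matrix (Fin 3) (Fin 3) Ω →ₗ[Ω] Matrix (Fin 3) (Fin 3) Ω)
    (h : ∀ c : D, (L (f c)).det = 0) (r : Matrix (Fin 3) (Fin 3) Ω) : (L r).det = 0 := by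
  let b := Module.finBasisOfFinrankEq K D hD
  have hind := H268.splitS_indep (by norm_num) f b
  have hspan : Submodule.span Ω (Set.range fun i => f (b i)) = ⊤ := by
    apply hind.span_eq_top_of_card_eq_finrank'
    rw [Fintype.card_fin, Module.finrank_matrix]
    simp
  have hr : r ∈ Submodule.span Ω (Set.range fun i => f (b i)) := hspan ▸ Submodule.mem_top
  obtain ⟨y, hy⟩ := (Submodule.mem_span_range_iff_exists_fun Ω).mp hr
  have h1 := det_dense (K := K) (fun i => L (f (b i))) (fun y => by
    have := h (∑ i, y i • b i)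
    rw [map_sum, map_sum] at this
    rw [← this]
    congr 1
    refine Finset.sum_congr rfl fun i _ => ?_
    rw [map_smul, ← algebraMap_smul Ω (y i) (f (b i)), map_smul]) y
  rw [← hy, map_sum]
  rw [← h1]
  congr 1
  exact Finset.sum_congr rfl fun i _ => by rw [map_smul]

end split

section descent

variable {k K Ω : Type*} [Field k] [Infinite k] [Field K] [Algebra k K] [Field Ω] [Algebra K Ω]

/-- A polynomial over `Ω` with values in `K` at the points of `k` has coefficients in `K`. -/
theorem exists_lift (p : Ω[X]) (F : k → K)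
    (h : ∀ t : k, p.eval (algebraMap K Ω (algebraMap k K t)) = algebraMap K Ω (F t)) :
    ∃ q : K[X], q.map (algebraMap K Ω) = p := by
  classical
  obtain ⟨s, hs⟩ := Infinite.exists_subset_card_eq k (p.natDegree + 1)
  let v : k → K := algebraMap k K
  refine ⟨Lagrange.interpolate s v F, ?_⟩
  have hv : Set.InjOn (fun t => algebraMap K Ω (v t)) s :=
    fun x _ y _ hxy => (algebraMap k K).injective ((algebraMap K Ω).injective hxy)
  have hdeg : p.degree < s.card := by
    rw [hs]
    exact lt_of_le_of_lt degree_le_natDegree (by exact_mod_cast Nat.lt_succ_self _)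
  have h1 := Lagrange.eq_interpolate hv hdeg
  rw [h1]
  have h2 : ((Lagrange.interpolate s v) F).map (algebraMap K Ω) =
      (Lagrange.interpolate s (fun t => algebraMap K Ω (v t))) (fun t => algebraMap K Ω (F t)) := by
    simp only [Lagrange.interpolate_apply, Polynomial.map_sum, Polynomial.map_mul, map_C]
    refine Finset.sum_congr rfl fun i _ => ?_
    congr 1
    simp only [Lagrange.basis, Lagrange.basisDivisor, Polynomial.map_prod, Polynomial.map_mul,
      map_C, Polynomial.map_sub, map_X, map_inv₀, map_sub]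
  rw [h2]
  exact Lagrange.interpolate_eq_of_values_eq_on _ _ (fun t _ => (h t).symm)

/-- Relations descend. -/
theorem rel_descend {ι : Type*} (P : ι → K[X]) (g : K[X])
    (h : g.map (algebraMap K Ω) ∈ Ideal.span (Set.range fun i => (P i).map (algebraMap K Ω))) :
    g ∈ Ideal.span (Set.range P) := by
  obtain ⟨g0, hg0⟩ := (inferInstance : (Ideal.span (Set.range P)).IsPrincipal)
  have hle : Ideal.span (Set.range fun i => (P i).map (algebraMap K Ω)) ≤
      Ideal.span {g0.map (algebraMap K Ω)} := by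
    rw [Ideal.span_le]
    rintro _ ⟨i, rfl⟩
    have h1 : P i ∈ Ideal.span (Set.range P) := Ideal.subset_span ⟨i, rfl⟩
    rw [hg0] at h1
    exact Ideal.mem_span_singleton.mpr (Polynomial.map_dvd _ (Ideal.mem_span_singleton.mp h1))
  have h2 := Ideal.mem_span_singleton.mp (hle h)
  rw [Polynomial.map_dvd_map'] at h2
  rw [hg0]
  exact Ideal.mem_span_singleton.mpr h2

end descent

end Vale.Agent.P011.H748
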