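import Vale.Agent.P011.H748.N4Irr
import Vale.Agent.P011.H948.Eta

/-!
# The special line is good; existence of the special line
-/

open Module NumberField IsDedekindDomain

set_option linter.unusedSectionVars false
set_option linter.unusedSimpArgs false
set_option linter.unusedVariables false

namespace Vale.Agent.P011.H748

open Vale.Agent.P011.Arith Vale.Agent.P011.Even Vale.Agent.P011.H182 Vale.Agent.P011.H775
  Vale.Agent.P011.H948 Vale.Agent.P011.H929

section special

variable {K D Ω : Type} [Field K] [StarRing K] [DivisionRing D] [StarRing D] [Algebra K D]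
  {C : Cub K D} (h : SCub C)

include h

theorem kap_symm {w a b : D} (hw : w * star w = 1) (ha : star a = a) (hb : star b = b) {e : K}
    (he : w * a - a * w = e • (w * b - b * w)) (hne : w * a - a * w ≠ 0) : star e = e := by
  have hsw : star w * w = 1 := h.star_mul_self hw
  have h0 : w * b - b * w ≠ 0 := by
    intro h0
    rw [h0, smul_zero] at he
    exact hne he
  have h1 : w * (a - e • b) = (a - e • b) * w := by
    rw [mul_sub, sub_mul, mul_smul_comm, smul_mul_assoc, ← sub_eq_zero]
    have : w * a - e • (w * b) - (a * w - e • (b * w)) =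
        (w * a - a * w) - e • (w * b - b * w) := by
      rw [smul_sub]; abel
    rw [this, he, sub_self]
  have h2 := congrArg star h1
  rw [star_mul, star_mul, star_sub, h.smul, ha, hb] at h2
  have h3 : w * (a - star e • b) = (a - star e • b) * w := by
    calc w * (a - star e • b) = w * (a - star e • b) * (star w * w) := by rw [hsw, mul_one]
      _ = w * ((a - star e • b) * star w) * w := by simp only [mul_assoc]
      _ = w * star w * ((a - star e • b) * w) := by rw [h2]; simp only [mul_assoc]
      _ = (a - star e • b) * w := by rw [hw, one_mul]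
  have h4 : w * a - a * w = star e • (w * b - b * w) := by
    rw [mul_sub, sub_mul, mul_smul_comm, smul_mul_assoc] at h3
    rw [smul_sub]
    have := sub_eq_zero.mpr h3
    rw [← sub_eq_zero, ← this]
    abel
  rw [he, ← sub_eq_zero, ← sub_smul] at h4
  exact (sub_eq_zero.mp ((smul_eq_zero.mp h4).resolve_right h0)).symm

variable [FiniteDimensional K D] [Algebra.IsCentral K D] [Field Ω] [Algebra K Ω]
  {f : D →ₐ[K] Matrix (Fin 3) (Fin 3) Ω}
  (hT : ∀ x, (f x).trace = algebraMap K Ω (C.T x))
  (hN : ∀ x, (f x).det = algebraMap K Ω (C.N x)) (hA : ∀ x, (f x).adjugate = f (C.adj x))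

include hT hN hA

/-- **The special line is good.** -/
theorem special_good (h9 : finrank K D = 3 ^ 2) {z u u' a b : D} (ha : star a = a)
    (hb : star b = b) (hza : C.T (z * a) = 0) (hzb : C.T (z * b) = 0)
    (h8 : C.T (z * C.adj b) ≠ 0)
    (hx : star (C.T (z * C.cr a b) / C.T (z * C.adj b)) =
      C.T (z * C.cr a b) / C.T (z * C.adj b))
    (h1 : star (C.T (z * C.adj a) / C.T (z * C.adj b)) ≠ C.T (z * C.adj a) / C.T (z * C.adj b))
    (hu : u * star u = 1) (hu' : u' * star u' = 1) (hua : u * a - a * u ≠ 0)
    (hua' : u' * a - a * u' ≠ 0) (t : Ω) :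
    GoodPt (f u) (f u') (f z) (f (star z)) (f a) (f a + t • f b) := by
  have hza' : C.T (star z * a) = 0 := by rw [T_star h ha, hza, star_zero]
  have hzb' : C.T (star z * b) = 0 := by rw [T_star h hb, hzb, star_zero]
  have e1 := bem_line C hT hN hA hza hzb t
  have e2 := bem_line C hT hN hA hza' hzb' t
  rw [T_star h (h.adj_symm ha), T_star h (h.adj_symm hb), T_star h (h.cr_symm ha hb)] at e2
  set s1 := C.T (z * C.adj a) with hs1
  set sx := C.T (z * C.cr a b) with hsx
  set s8 := C.T (z * C.adj b) with hs8
  set σ := algebraMap K Ω s1 + t * algebraMap K Ω sx + t ^ 2 * algebraMap K Ω s8 with hσ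
  set σ' := algebraMap K Ω (star s1) + t * algebraMap K Ω (star sx) +
    t ^ 2 * algebraMap K Ω (star s8) with hσ'
  have h8' : star s8 ≠ 0 := star_ne_zero.mpr h8
  have hcop : ¬ (σ = 0 ∧ σ' = 0) := by
    rintro ⟨g1, g2⟩
    apply h1
    have i8 : algebraMap K Ω s8 ≠ 0 := (_root_.map_ne_zero _).mpr h8
    have i8' : algebraMap K Ω (star s8) ≠ 0 := (_root_.map_ne_zero _).mpr h8'
    have k1 : algebraMap K Ω (s1 / s8) + t * algebraMap K Ω (sx / s8) + t ^ 2 = 0 := by
      rw [map_div₀, map_div₀]
      field_simp
      linear_combination g1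
    have k2 : algebraMap K Ω (star (s1 / s8)) + t * algebraMap K Ω (star (sx / s8)) + t ^ 2 =
        0 := by
      rw [star_div₀, star_div₀, map_div₀, map_div₀]
      field_simp
      linear_combination g2
    rw [hx] at k2
    apply (algebraMap K Ω).injective
    linear_combination k2 - k1
  have part : ∀ w : D, w * star w = 1 → w * a - a * w ≠ 0 →
      ¬ (cd (qm (f w) (f z) (f (star z)) (f a + t • f b)) (f a) = 0 ∧
        cd (f w) (f a + t • f b) = 0) := by
    rintro w hw hwa ⟨g1, g2⟩
    have e3 : qm (f w) (f z) (f (star z)) (f a + t • f b) = (σ' * σ ^ 2) • f w := by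
      rw [qm, e1, e2, Matrix.adjugate_smul, Matrix.adjugate_one, mul_smul_comm, mul_smul_comm,
        mul_one, mul_one, smul_smul, Fintype.card_fin, mul_comm]
    have e4 : cd ((σ' * σ ^ 2) • f w) (f a) = (σ' * σ ^ 2) ^ 3 *
        algebraMap K Ω (C.N (w * a - a * w)) := by
      rw [cd, smul_mul_assoc, mul_smul_comm, ← smul_sub, Matrix.det_smul, Fintype.card_fin,
        ← map_mul, ← map_mul, ← map_sub, hN]
    rw [e3, e4] at g1
    have g3 := (mul_eq_zero.mp g1).resolve_right
      ((_root_.map_ne_zero _).mpr (C.N_ne_zero hwa))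
    have g4 : σ' = 0 ∨ σ = 0 := by
      rcases mul_eq_zero.mp ((pow_eq_zero_iff (by norm_num)).mp g3) with g5 | g5
      · exact Or.inl g5
      · exact Or.inr ((pow_eq_zero_iff (by norm_num)).mp g5)
    have e5 : cd (f w) (f a + t • f b) =
        (f (w * a - a * w) + t • f (w * b - b * w)).det := by
      rw [cd]
      congr 1
      simp only [map_sub, map_mul, mul_add, add_mul, mul_smul_comm, smul_mul_assoc, smul_sub]
      abel
    rw [e5] at g2
    have fin : ∀ e : K, w * a - a * w = e • (w * b - b * w) → t = -algebraMap K Ω e → False := by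
      intro e he hte
      have hse := kap_symm h hw ha hb he hwa
      have v1 : σ = algebraMap K Ω (s1 - e * sx + e ^ 2 * s8) := by
        rw [hσ, hte]
        simp only [map_add, map_sub, map_mul, map_pow]
        ring
      have v2 : σ' = algebraMap K Ω (star (s1 - e * sx + e ^ 2 * s8)) := by
        rw [hσ', hte, star_add, star_sub, star_mul', star_mul', star_pow, hse]
        simp only [map_add, map_sub, map_mul, map_pow]
        ring
      rcases g4 with g5 | g5
      · apply hcop
        refine ⟨?_, g5⟩
        rw [v2, map_eq_zero, star_eq_zero] at g5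
        rw [v1, g5, map_zero]
      · apply hcop
        refine ⟨g5, ?_⟩
        rw [v1, map_eq_zero] at g5
        rw [v2, g5, star_zero, map_zero]
    rcases g4 with g5 | g5
    · obtain ⟨e, he, hte⟩ := irr C hT hN hA h9 hwa g2 h8' (hσ'.symm.trans g5)
      exact fin e he hte
    · obtain ⟨e, he, hte⟩ := irr C hT hN hA h9 hwa g2 h8 (hσ.symm.trans g5)
      exact fin e he hte
  refine ⟨?_, part u hu hua, part u' hu' hua'⟩
  rintro ⟨g1, g2⟩
  rw [e1, Matrix.det_smul, Matrix.det_one, mul_one] at g1
  rw [e2, Matrix.det_smul, Matrix.det_one, mul_one] at g2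
  exact hcop ⟨(pow_eq_zero_iff (n := Fintype.card (Fin 3)) (by simp)).mp g1,
    (pow_eq_zero_iff (n := Fintype.card (Fin 3)) (by simp)).mp g2⟩

end special

section iso

variable {K D : Type} [Field K] [CharZero K] [DivisionRing D] [Algebra K D]
  [FiniteDimensional K D] (C : Cub K D)

/-- The trace form. -/
def trF : D →ₗ[K] Dual K D where
  toFun y := C.T ∘ₗ LinearMap.mulLeft K y
  map_add' y y' := by
    ext b
    simp [add_mul]
  map_smul' c y := by
    ext b
    simp

theorem trF_apply (y b : D) : trF C y b = C.T (y * b) := rfl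

theorem trF_inj : Function.Injective (trF C) := by
  rw [← LinearMap.ker_eq_bot, LinearMap.ker_eq_bot']
  intro y hy
  by_contra hne
  have := LinearMap.congr_fun hy y⁻¹
  rw [trF_apply, mul_inv_cancel₀ hne, C.T_one, LinearMap.zero_apply] at this
  norm_num at this

/-- The map `a ↦ ν × a`. -/
def crL (n : D) : D →ₗ[K] D where
  toFun a := C.cr n a
  map_add' a b := C.cr_add_right n a b
  map_smul' c a := C.cr_smul_right c n a

theorem crL_inj {n : D} (hn : n ≠ 0) : Function.Injective (crL C n) := by
  rw [← LinearMap.ker_eq_bot, LinearMap.ker_eq_bot']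
  intro a ha
  change C.cr n a = 0 at ha
  have h1 := mul_cr_add C two_ne_zero n a
  rw [ha, mul_zero, zero_add] at h1
  set c := C.T (C.adj n * a) with hc
  have hadj := C.adj_ne_zero hn
  have h2 : a = c • (C.adj n)⁻¹ := by
    have : a = a * C.adj n * (C.adj n)⁻¹ := by
      rw [mul_assoc, mul_inv_cancel₀ hadj, mul_one]
    rw [this, h1, smul_mul_assoc, one_mul]
  have h3 : (C.adj n)⁻¹ = (C.N n)⁻¹ • n := by
    rw [C.adj_eq_inv hn, smul_inv₀, inv_inv]
  rw [h3, smul_smul] at h2
  rw [h2, C.cr_smul_right, C.cr_self, smul_smul] at ha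
  rcases smul_eq_zero.mp ha with h4 | h4
  · have h5 : c = 0 := by
      have hN := C.N_ne_zero hn
      have h6 := (mul_eq_zero.mp h4).resolve_right two_ne_zero
      exact (mul_eq_zero.mp h6).resolve_right (inv_ne_zero hN)
    rw [h2, h5, zero_mul, zero_smul]
  · exact absurd h4 hadj

/-- The quadratic form `T (ν a^#)` has no isotropic subspace of dimension five. -/
theorem exists_aniso (h9 : finrank K D = 3 ^ 2) {n : D} (hn : n ≠ 0) (W : Submodule K D)
    (hW : 5 ≤ finrank K W) : ∃ w ∈ W, C.T (n * C.adj w) ≠ 0 := by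
  by_contra hcon
  push Not at hcon
  have hcr : ∀ a ∈ W, ∀ b ∈ W, C.T (n * C.cr a b) = 0 := by
    intro a ha b hb
    have h1 := hcon (a + b) (W.add_mem ha hb)
    rw [C.adj_add, mul_add, mul_add, map_add, map_add, hcon a ha, hcon b hb, zero_add,
      zero_add] at h1
    exact h1
  let ψ : D →ₗ[K] Dual K D := trF C ∘ₗ crL C n
  have hψ : Function.Injective ψ := (trF_inj C).comp (crL_inj C hn)
  have hle : W.map ψ ≤ W.dualAnnihilator := by
    rintro _ ⟨a, ha, rfl⟩
    rw [Submodule.mem_dualAnnihilator]
    intro b hb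
    change C.T (C.cr n a * b) = 0
    rw [C.T_cr_mul]
    exact hcr a ha b hb
  have h1 : finrank K (W.map ψ) = finrank K W :=
    LinearEquiv.finrank_eq (Submodule.equivMapOfInjective ψ hψ W).symm
  have h2 := Submodule.finrank_mono hle
  have h3 := Subspace.finrank_add_finrank_dualAnnihilator_eq W
  rw [h1] at h2
  rw [h9] at h3
  omega

end iso

end Vale.Agent.P011.H748
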