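import Vale.Agent.P011.H748.N4Curve
import Vale.Agent.P011.H929.Class4

/-!
# Integrality of the curve at almost all places, units at nonsplit places
-/

open Module NumberField IsDedekindDomain Polynomial

set_option linter.unusedSectionVars false
set_option linter.unusedSimpArgs false

namespace Vale.Agent.P011.H748

open Vale.Agent.P011.Arith Vale.Agent.P011.Even Vale.Agent.P011.H182 Vale.Agent.P011.H775
  Vale.Agent.P011.H948 Vale.Agent.P011.H929

section mulz

theorem mlt {a b : Z0} (ha : a ≤ 1) (hb : b < 1) : a * b < 1 :=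
  (mul_le_of_le_one_left' ha).trans_lt hb

theorem mlt' {a b : Z0} (ha : a < 1) (hb : b ≤ 1) : a * b < 1 :=
  (mul_le_of_le_one_right' hb).trans_lt ha

end mulz

section base

variable {k K D : Type} [Field k] [NumberField k] [Field K] [StarRing K]
    [DivisionRing D] [StarRing D] [Algebra k K] [Algebra k D] [Algebra K D] [IsScalarTower k K D]
    {d : kˣ} {s : K} (v : HeightOneSpectrum (𝓞 k))

/-- `v`-integral elements of `K` (at a place where `2` and `d` are units). -/
def KI (s : K) (e : K) : Prop := ∃ a b : k, e = algebraMap k K a + algebraMap k K b * s ∧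
  v.valuation k a ≤ 1 ∧ v.valuation k b ≤ 1

/-- `v`-small elements of `K`. -/
def KS (s : K) (e : K) : Prop := ∃ a b : k, e = algebraMap k K a + algebraMap k K b * s ∧
  v.valuation k a < 1 ∧ v.valuation k b < 1

variable {v}

theorem KI.add {e e' : K} (h : KI v s e) (h' : KI v s e') : KI v s (e + e') := by
  obtain ⟨a, b, rfl, ha, hb⟩ := h
  obtain ⟨a', b', rfl, ha', hb'⟩ := h'
  exact ⟨a + a', b + b', by rw [map_add, map_add]; ring, Valuation.map_add_le _ ha ha',
    Valuation.map_add_le _ hb hb'⟩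

theorem KS.add {e e' : K} (h : KS v s e) (h' : KS v s e') : KS v s (e + e') := by
  obtain ⟨a, b, rfl, ha, hb⟩ := h
  obtain ⟨a', b', rfl, ha', hb'⟩ := h'
  exact ⟨a + a', b + b', by rw [map_add, map_add]; ring, Valuation.map_add_lt _ ha ha',
    Valuation.map_add_lt _ hb hb'⟩

theorem ki_of {a : k} (ha : v.valuation k a ≤ 1) : KI v s (algebraMap k K a) :=
  ⟨a, 0, by rw [map_zero, zero_mul, add_zero], ha, by rw [map_zero]; exact zero_le_one⟩

theorem ks_zero : KS v s (0 : K) := ⟨0, 0, by simp, by simp, by simp⟩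

theorem KI.mul (hS : Setting k K D d s) (hd : v.valuation k (d : k) ≤ 1) {e e' : K}
    (h : KI v s e) (h' : KI v s e') : KI v s (e * e') := by
  obtain ⟨a, b, rfl, ha, hb⟩ := h
  obtain ⟨a', b', rfl, ha', hb'⟩ := h'
  refine ⟨a * a' + b * b' * d, a * b' + b * a', ?_, ?_, ?_⟩
  · have hsq := hS.sq
    simp only [map_add, map_mul]
    rw [← hsq]
    ring
  · refine Valuation.map_add_le _ ?_ ?_
    · rw [map_mul]; exact mul_le_one' ha ha'
    · rw [map_mul, map_mul]; exact mul_le_one' (mul_le_one' hb hb') hd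
  · refine Valuation.map_add_le _ ?_ ?_
    · rw [map_mul]; exact mul_le_one' ha hb'
    · rw [map_mul]; exact mul_le_one' hb ha'

theorem KS.mul (hS : Setting k K D d s) (hd : v.valuation k (d : k) ≤ 1) {e e' : K}
    (h : KI v s e) (h' : KS v s e') : KS v s (e * e') := by
  obtain ⟨a, b, rfl, ha, hb⟩ := h
  obtain ⟨a', b', rfl, ha', hb'⟩ := h'
  refine ⟨a * a' + b * b' * d, a * b' + b * a', ?_, ?_, ?_⟩
  · have hsq := hS.sq
    simp only [map_add, map_mul]
    rw [← hsq]
    ring
  · refine Valuation.map_add_lt _ ?_ ?_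
    · rw [map_mul]; exact mlt ha ha'
    · rw [map_mul, map_mul]
      exact mlt' (mlt hb hb') hd
  · refine Valuation.map_add_lt _ ?_ ?_
    · rw [map_mul]; exact mlt ha hb'
    · rw [map_mul]; exact mlt hb ha'

theorem KS.star (hS : Setting k K D d s) {e : K} (h : KS v s e) : KS v s (Star.star e) := by
  obtain ⟨a, b, rfl, ha, hb⟩ := h
  refine ⟨a, -b, ?_, ha, by rwa [Valuation.map_neg]⟩
  rw [star_add, star_mul', hS.star_s, (hS.fix _).mpr ⟨a, rfl⟩, (hS.fix _).mpr ⟨b, rfl⟩, map_neg]
  ring

theorem ks_unique (hS : Setting k K D d s) {a b a' b' : k}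
    (h : algebraMap k K a + algebraMap k K b * s = algebraMap k K a' + algebraMap k K b' * s) :
    a = a' ∧ b = b' := by
  have hc := char_K hS
  have hs := s_ne_zero hS
  have h1 := congrArg Star.star h
  rw [star_add, star_add, star_mul', star_mul', hS.star_s, (hS.fix _).mpr ⟨a, rfl⟩,
    (hS.fix _).mpr ⟨b, rfl⟩, (hS.fix _).mpr ⟨a', rfl⟩, (hS.fix _).mpr ⟨b', rfl⟩] at h1
  have h2 : algebraMap k K a = algebraMap k K a' := by
    have : (2 : K) * (algebraMap k K a - algebraMap k K a') = 0 := by linear_combination h + h1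
    exact sub_eq_zero.mp ((mul_eq_zero.mp this).resolve_left two_ne_zero)
  have h3 : algebraMap k K b = algebraMap k K b' := by
    have : (algebraMap k K b - algebraMap k K b') * s = 0 := by linear_combination h - h2
    exact sub_eq_zero.mp ((mul_eq_zero.mp this).resolve_right hs)
  exact ⟨(algebraMap k K).injective h2, (algebraMap k K).injective h3⟩

theorem ks_alg (hS : Setting k K D d s) {a : k} (h : KS v s (algebraMap k K a)) :
    v.valuation k a < 1 := by
  obtain ⟨a', b', h1, ha, -⟩ := h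
  have h2 : algebraMap k K a + algebraMap k K 0 * s =
      algebraMap k K a' + algebraMap k K b' * s := by
    rw [map_zero, zero_mul, add_zero, h1]
  rw [(ks_unique hS h2).1]
  exact ha

theorem not_ks_one (hS : Setting k K D d s) : ¬ KS v s (1 : K) := by
  intro h
  have h1 := ks_alg hS (a := 1) (by rwa [map_one])
  rw [map_one] at h1
  exact lt_irrefl _ h1

/-- At a nonsplit place an element of small norm is small. -/
theorem small_of_norm (h2 : v.valuation k 2 = 1) (hd : v.valuation k (d : k) = 1)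
    (hLS : d ∉ LS (v.valuation k)) {a b : k} (ha : v.valuation k a ≤ 1)
    (hb : v.valuation k b ≤ 1) (hn : v.valuation k (a ^ 2 - d * b ^ 2) < 1) :
    v.valuation k a < 1 ∧ v.valuation k b < 1 := by
  have hb1 : v.valuation k b < 1 := by
    by_contra hcon
    have hb1 : v.valuation k b = 1 := le_antisymm hb (not_lt.mp hcon)
    have hdb : v.valuation k (d * b ^ 2) = 1 := by rw [map_mul, map_pow, hd, hb1]; simp
    have ha2 : v.valuation k (a ^ 2) = 1 := by
      have e : a ^ 2 = d * b ^ 2 + (a ^ 2 - d * b ^ 2) := by ring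
      rw [e, Valuation.map_add_eq_of_lt_left _ (by rw [hdb]; exact hn), hdb]
    have ha1 : v.valuation k a = 1 := by
      rw [map_pow] at ha2
      exact (pow_eq_one_iff.mp ha2).resolve_right two_ne_zero
    have ha0 : a ≠ 0 := by
      rintro rfl
      rw [map_zero] at ha1
      exact zero_ne_one ha1
    have hb0 : b ≠ 0 := by
      rintro rfl
      rw [map_zero] at hb1
      exact zero_ne_one hb1
    apply hLS
    refine ⟨Units.mk0 (a / b) (div_ne_zero ha0 hb0), ?_⟩
    have e : (d : k) / ((Units.mk0 (a / b) (div_ne_zero ha0 hb0) : kˣ) : k) ^ 2 - 1 =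
        -((a ^ 2 - d * b ^ 2) / a ^ 2) := by
      rw [Units.val_mk0]
      field_simp
      ring
    have h4 : v.valuation k 4 = 1 := by
      have e4 : (4 : k) = 2 * 2 := by norm_num
      rw [e4, map_mul, h2, one_mul]
    rw [e, Valuation.map_neg, map_div₀, ha2, div_one, h4]
    exact hn
  refine ⟨?_, hb1⟩
  have h3 : v.valuation k (a ^ 2) < 1 := by
    have e : a ^ 2 = d * b ^ 2 + (a ^ 2 - d * b ^ 2) := by ring
    rw [e]
    refine Valuation.map_add_lt _ ?_ hn
    rw [map_mul, map_pow, hd, one_mul]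
    exact pow_lt_one₀ zero_le hb1 two_ne_zero
  rw [map_pow] at h3
  by_contra hcon
  rw [not_lt] at hcon
  exact absurd (one_le_pow₀ hcon : 1 ≤ v.valuation k a ^ 2) (not_le.mpr h3)

/-- Integral and not small: a unit. -/
theorem unit_of_not_small (hS : Setting k K D d s) (h2 : v.valuation k 2 = 1)
    (hd : v.valuation k (d : k) = 1) (hLS : d ∉ LS (v.valuation k)) {e : K} (he : KI v s e)
    (hs : ¬ KS v s e) :
    ∃ c : k, Star.star e * e = algebraMap k K c ∧ v.valuation k c = 1 := by
  obtain ⟨a, b, rfl, ha, hb⟩ := he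
  refine ⟨a ^ 2 - d * b ^ 2, ?_, ?_⟩
  · rw [star_add, star_mul', hS.star_s, (hS.fix _).mpr ⟨a, rfl⟩, (hS.fix _).mpr ⟨b, rfl⟩, map_sub,
      map_mul, map_pow, map_pow, ← hS.sq]
    ring
  · apply le_antisymm
    · refine (Valuation.map_sub _ _ _).trans (max_le ?_ ?_)
      · rw [map_pow]; exact pow_le_one₀ zero_le ha
      · rw [map_mul, map_pow, hd, one_mul]; exact pow_le_one₀ zero_le hb
    · by_contra hcon
      obtain ⟨h3, h4⟩ := small_of_norm h2 hd hLS ha hb (not_le.mp hcon)
      exact hs ⟨a, b, rfl, h3, h4⟩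

/-- The norm of an element which is small is small; conversely at nonsplit places. -/
theorem small_of_mul_star (hS : Setting k K D d s) (h2 : v.valuation k 2 = 1)
    (hd : v.valuation k (d : k) = 1) (hLS : d ∉ LS (v.valuation k)) {e : K} (he : KI v s e)
    {M : ℕ} (h : KS v s ((e * Star.star e) ^ M)) : KS v s e := by
  by_contra hcon
  obtain ⟨c, hc, hc1⟩ := unit_of_not_small hS h2 hd hLS he hcon
  rw [mul_comm, hc, ← map_pow] at h
  have h3 := ks_alg hS h
  rw [map_pow, hc1, one_pow] at h3
  exact lt_irrefl _ h3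

/-- Almost all places are good for an element of `K`. -/
theorem finite_not_ki (hS : Setting k K D d s) (e : K) :
    {v : HeightOneSpectrum (𝓞 k) | ¬ KI v s e}.Finite := by
  obtain ⟨a, b, rfl⟩ := exists_ks hS e
  refine ((finite_big a).union (finite_big b)).subset fun v hv => ?_
  simp only [Set.mem_union, Set.mem_ofPred_eq]
  by_contra hcon
  push Not at hcon
  exact hv ⟨a, b, rfl, (plAbv_le_one v a).mp hcon.1, (plAbv_le_one v b).mp hcon.2⟩

theorem finite_ks (hS : Setting k K D d s) {e : K} (he : e ≠ 0) :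
    {v : HeightOneSpectrum (𝓞 k) | KS v s e}.Finite := by
  obtain ⟨a, b, rfl⟩ := exists_ks hS e
  by_cases ha : a = 0
  · have hb : b ≠ 0 := by
      rintro rfl
      apply he
      rw [ha]; simp
    refine (finite_ne_one (Units.mk0 b hb)).subset fun v hv => ?_
    obtain ⟨a', b', h1, -, h3⟩ := hv
    intro hcon
    rw [← (ks_unique hS h1).2] at h3
    rw [Units.val_mk0] at hcon
    exact absurd hcon h3.ne
  · refine (finite_ne_one (Units.mk0 a ha)).subset fun v hv => ?_
    obtain ⟨a', b', h1, h2, -⟩ := hv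
    intro hcon
    rw [← (ks_unique hS h1).1] at h2
    rw [Units.val_mk0] at hcon
    exact absurd hcon h2.ne

theorem finite_not_unit (c : kˣ) :
    {v : HeightOneSpectrum (𝓞 k) | ¬ v.valuation k (c : k) = 1}.Finite := finite_ne_one c

/-- Values of a polynomial at integral points. -/
theorem finite_poly (hS : Setting k K D d s) (p : K[X]) :
    ∃ S : Set (HeightOneSpectrum (𝓞 k)), S.Finite ∧ ∀ v ∉ S, ∀ t : k, v.valuation k t ≤ 1 →
      KI v s (p.eval (algebraMap k K t)) := by
  refine ⟨{v | ¬ v.valuation k (d : k) = 1} ∪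
    ⋃ i ∈ Finset.range (p.natDegree + 1), {v | ¬ KI v s (p.coeff i)}, ?_, ?_⟩
  · exact (finite_not_unit d).union (Set.Finite.biUnion (Finset.finite_toSet _)
      fun i _ => finite_not_ki hS _)
  · intro v hv t ht
    simp only [Set.mem_union, Set.mem_iUnion, Set.mem_ofPred_eq, not_or, not_exists, not_not]
      at hv
    obtain ⟨hd, hc⟩ := hv
    have hpow : ∀ i : ℕ, KI v s (algebraMap k K t ^ i) := by
      intro i
      rw [← map_pow]
      exact ki_of (by rw [map_pow]; exact pow_le_one₀ zero_le ht)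
    rw [eval_eq_sum_range]
    have : ∀ T : Finset ℕ, T ⊆ Finset.range (p.natDegree + 1) →
        KI v s (∑ i ∈ T, p.coeff i * algebraMap k K t ^ i) := by
      intro T
      induction T using Finset.induction_on with
      | empty =>
        intro _
        rw [Finset.sum_empty]
        have := ki_of (v := v) (s := s) (a := 0) (by simp)
        rwa [map_zero] at this
      | insert i T hi ih =>
        intro hT
        rw [Finset.sum_insert hi]
        exact ((hc i (hT (Finset.mem_insert_self _ _))).mul hS hd.le (hpow i)).add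
          (ih fun j hj => hT (Finset.mem_insert_of_mem hj))
    exact this _ subset_rfl

end base

section integral

variable {k K D : Type} [Field k] [NumberField k] [Field K] [StarRing K]
    [DivisionRing D] [StarRing D] [Algebra k K] [Algebra k D] [Algebra K D] [IsScalarTower k K D]
    {d : kˣ} {s : K} {N : ℕ} (B : Basis (Fin N) k D)

/-- Integral at almost all places, uniformly at the integral points of the line. -/
def EI (ψ : k → D) : Prop := ∃ S : Set (HeightOneSpectrum (𝓞 k)), S.Finite ∧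
  ∀ v ∉ S, ∀ t : k, v.valuation k t ≤ 1 → Ig B (plAbv (Sum.inl v)) (ψ t)

variable {B}

theorem ei_const (x : D) : EI B fun _ : k => x := by
  refine ⟨{v | ¬ Ig B (plAbv (Sum.inl v)) x}, ?_, fun v hv t _ => by
    simpa using hv⟩
  refine (Set.finite_iUnion fun i => finite_big (B.repr x i)).subset fun v hv => ?_
  simp only [Set.mem_ofPred_eq, Ig, not_forall] at hv
  obtain ⟨i, hi⟩ := hv
  exact Set.mem_iUnion.mpr ⟨i, hi⟩

theorem EI.add {ψ ψ' : k → D} (h : EI B ψ) (h' : EI B ψ') : EI B fun t => ψ t + ψ' t := by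
  obtain ⟨S, hS, h1⟩ := h
  obtain ⟨S', hS', h1'⟩ := h'
  refine ⟨S ∪ S', hS.union hS', fun v hv t ht => ?_⟩
  rw [Set.mem_union, not_or] at hv
  exact Gd.add (isNonarch v) (h1 v hv.1 t ht) (h1' v hv.2 t ht)

theorem EI.sub {ψ ψ' : k → D} (h : EI B ψ) (h' : EI B ψ') : EI B fun t => ψ t - ψ' t := by
  obtain ⟨S, hS, h1⟩ := h
  obtain ⟨S', hS', h1'⟩ := h'
  refine ⟨S ∪ S', hS.union hS', fun v hv t ht => ?_⟩
  rw [Set.mem_union, not_or] at hv
  exact Gd.sub (isNonarch v) (h1 v hv.1 t ht) (h1' v hv.2 t ht)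

theorem EI.mul {ψ ψ' : k → D} (h : EI B ψ) (h' : EI B ψ') : EI B fun t => ψ t * ψ' t := by
  obtain ⟨S, hS, h1⟩ := h
  obtain ⟨S', hS', h1'⟩ := h'
  refine ⟨S ∪ S' ∪ {v | ¬ Gd B (plAbv (Sum.inl v))}, (hS.union hS').union (finite_bad B),
    fun v hv t ht => ?_⟩
  simp only [Set.mem_union, not_or, Set.mem_ofPred_eq, not_not] at hv
  exact hv.2.mul' (h1 v hv.1.1 t ht) (h1' v hv.1.2 t ht)

theorem EI.star (hS : Setting k K D d s) {ψ : k → D} (h : EI B ψ) :
    EI B fun t => Star.star (ψ t) := by
  obtain ⟨S, hSf, h1⟩ := h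
  refine ⟨S ∪ {v | ¬ Gd B (plAbv (Sum.inl v))}, hSf.union (finite_bad B), fun v hv t ht => ?_⟩
  simp only [Set.mem_union, not_or, Set.mem_ofPred_eq, not_not] at hv
  exact hv.2.star (star_k hS) (h1 v hv.1 t ht)

theorem EI.tsmul {ψ : k → D} (h : EI B ψ) : EI B fun t => t • ψ t := by
  obtain ⟨S, hS, h1⟩ := h
  exact ⟨S, hS, fun v hv t ht => Gd.smul ((plAbv_le_one v t).mpr ht) (h1 v hv t ht)⟩

variable (B) in
/-- The same for functions with values in `K`. -/
def EK (φ : k → K) : Prop := EI B fun t => algebraMap K D (φ t)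

theorem EK.mul {φ φ' : k → K} (h : EK (D := D) B φ) (h' : EK B φ') :
    EK B fun t => φ t * φ' t := by
  have := EI.mul h h'
  simpa only [EK, map_mul] using this

theorem EK.sub {φ φ' : k → K} (h : EK (D := D) B φ) (h' : EK B φ') :
    EK B fun t => φ t - φ' t := by
  have := EI.sub h h'
  simpa only [EK, map_sub] using this

theorem ek_const (c : K) : EK (k := k) (D := D) B fun _ => c := ei_const _

theorem EI.ksmul {φ : k → K} {ψ : k → D} (h : EK B φ) (h' : EI B ψ) :
    EI B fun t => φ t • ψ t := by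
  have := EI.mul h h'
  simpa only [← Algebra.smul_def] using this

variable (C : Cub K D)

theorem EI.T {ψ : k → D} (h : EI B ψ) : EK B fun t => C.T (ψ t) := by
  have e : ∀ y : D, algebraMap K D (C.T y) =
      ∑ i, B.repr y i • algebraMap K D (C.T (B i)) := by
    intro y
    conv_lhs => rw [← B.sum_repr y]
    rw [map_sum, map_sum]
    refine Finset.sum_congr rfl fun i _ => ?_
    rw [← algebraMap_smul K (B.repr y i) (B i), map_smul, smul_eq_mul, map_mul,
      ← IsScalarTower.algebraMap_apply, ← Algebra.smul_def]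
  obtain ⟨S, hS, h1⟩ := h
  choose S' hS' h1' using fun i => ei_const (k := k) (B := B) (algebraMap K D (C.T (B i)))
  refine ⟨S ∪ ⋃ i, S' i, hS.union (Set.finite_iUnion hS'), fun v hv t ht => ?_⟩
  simp only [Set.mem_union, not_or, Set.mem_iUnion, not_exists] at hv
  change Ig B _ (algebraMap K D (C.T (ψ t)))
  rw [e]
  exact Gd.sum (isNonarch v) _ fun i _ => Gd.smul (h1 v hv.1 t ht i) (h1' i v (hv.2 i) t ht)

theorem EI.adj [CharZero K] {ψ : k → D} (h : EI B ψ) : EI B fun t => C.adj (ψ t) := by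
  have e : ∀ x : D, C.adj x = x * x - C.T x • x +
      ((2 : K)⁻¹ * (C.T x * C.T x - C.T (x * x))) • (1 : D) := by
    intro x
    have h1 := C.T_cr x x
    rw [C.cr_self, map_smul, smul_eq_mul] at h1
    rw [← h1, ← mul_assoc, inv_mul_cancel₀ two_ne_zero, one_mul]
    exact C.adj_eq x
  simp only [e]
  exact ((h.mul h).sub (EI.ksmul (h.T C) h)).add
    (EI.ksmul ((ek_const _).mul (((h.T C).mul (h.T C)).sub ((h.mul h).T C))) (ei_const 1))

theorem EI.be [CharZero K] {ψ : k → D} (z : D) (h : EI B ψ) : EI B fun t => be C z (ψ t) :=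
  (EI.ksmul (((ei_const z).mul (h.adj C)).T C) (ei_const 1)).add
    (EI.ksmul (((ei_const z).mul h).T C) h)

theorem EI.qq [CharZero K] {ψ : k → D} (w z z' : D) (h : EI B ψ) :
    EI B fun t => qq C w z z' (ψ t) :=
  ((ei_const w).mul (h.be C z')).mul ((h.be C z).adj C)

theorem EI.hr [CharZero K] {ψ ψ' : k → D} (c : D) (h : EI B ψ) (h' : EI B ψ') :
    EI B fun t => hr C (ψ t) (ψ' t) c :=
  (((h.mul h).mul (ei_const c)).add ((h.mul (ei_const c)).mul
    (h'.sub (EI.ksmul (h'.T C) (ei_const 1))))).add ((ei_const c).mul (h'.adj C))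

theorem EI.line (a b : D) : EI B fun t : k => a + t • b := (ei_const a).add (ei_const b).tsmul

/-- The adjoint up to the conjugate of the norm. -/
theorem EI.nadj [CharZero K] (hS : Setting k K D d s) {ψ : k → D} (h : EI B ψ) :
    EI B fun t => Star.star (C.N (ψ t)) • C.adj (ψ t) := by
  have e : ∀ x : D, Star.star (C.N x) • C.adj x = Star.star (x * C.adj x) * C.adj x := by
    intro x
    rw [C.mul_adj, hS.star_smul, star_one, smul_mul_assoc, one_mul]
  simp only [e]
  exact ((h.mul (h.adj C)).star hS).mul (h.adj C)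

end integral

end Vale.Agent.P011.H748
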